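import Vale.Agent.P232.OneDim.CaseB.Data01
import Vale.Agent.P232.OneDim.CaseB.Data02
import Vale.Agent.P232.OneDim.CaseB.Data03
import Vale.Agent.P232.OneDim.CaseB.Data04
import Vale.Agent.P232.OneDim.CaseB.Data05
import Vale.Agent.P232.OneDim.CaseB.Data06
import Vale.Agent.P232.OneDim.CaseB.Data07
import Vale.Agent.P232.OneDim.CaseB.Data08
import Vale.Agent.P232.OneDim.CaseB.Data09
import Vale.Agent.P232.OneDim.CaseB.Data10
import Vale.Agent.P232.OneDim.CaseB.Data11
import Vale.Agent.P232.OneDim.CaseB.Data12
import Vale.Agent.P232.OneDim.CaseB.Data13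
import Vale.Agent.P232.OneDim.CaseB.Data14
import Vale.Agent.P232.OneDim.CaseB.Data15
import Vale.Agent.P232.OneDim.CaseB.Data16
import Vale.Agent.P232.OneDim.CaseB.Data17
import Vale.Agent.P232.OneDim.CaseB.Data18
import Vale.Agent.P232.OneDim.CaseB.Data19
import Vale.Agent.P232.OneDim.CaseB.Data20
import Vale.Agent.P232.OneDim.CaseB.Data21
import Vale.Agent.P232.OneDim.CaseB.Data22
import Vale.Agent.P232.OneDim.CaseB.Data23
import Vale.Agent.P232.OneDim.CaseB.Data24

/-!
# P232: the assembled certificate of case B
-/

namespace Vale.Agent.P232.CaseB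

def join0 : Tree := .sg 375000 part3 part4

theorem join0_ok : check join0 ⟨375000, 500000, 250000, 1000000, 0, 125000, 0, 250000⟩ = true :=
  Bool.and_eq_true_iff.2 ⟨part3_ok, part4_ok⟩

def join1 : Tree := .sa 375000 part2 join0

theorem join1_ok : check join1 ⟨250000, 500000, 250000, 1000000, 0, 125000, 0, 250000⟩ = true :=
  Bool.and_eq_true_iff.2 ⟨part2_ok, join0_ok⟩

def join2 : Tree := .sg 375000 part6 part7

theorem join2_ok : check join2 ⟨375000, 500000, 250000, 1000000, 0, 125000, 250000, 1000000⟩ = true :=
  Bool.and_eq_true_iff.2 ⟨part6_ok, part7_ok⟩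

def join3 : Tree := .sa 375000 part5 join2

theorem join3_ok : check join3 ⟨250000, 500000, 250000, 1000000, 0, 125000, 250000, 1000000⟩ = true :=
  Bool.and_eq_true_iff.2 ⟨part5_ok, join2_ok⟩

def join4 : Tree := .sq 250000 join1 join3

theorem join4_ok : check join4 ⟨250000, 500000, 250000, 1000000, 0, 125000, 0, 1000000⟩ = true :=
  Bool.and_eq_true_iff.2 ⟨join1_ok, join3_ok⟩

def join5 : Tree := .sq 375000 part11 part12

theorem join5_ok : check join5 ⟨375000, 500000, 375000, 1000000, 125000, 187500, 250000, 1000000⟩ = true :=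
  Bool.and_eq_true_iff.2 ⟨part11_ok, part12_ok⟩

def join6 : Tree := .sa 437500 part13 part14

theorem join6_ok : check join6 ⟨375000, 500000, 375000, 1000000, 187500, 250000, 250000, 375000⟩ = true :=
  Bool.and_eq_true_iff.2 ⟨part13_ok, part14_ok⟩

def join7 : Tree := .sq 375000 join6 part15

theorem join7_ok : check join7 ⟨375000, 500000, 375000, 1000000, 187500, 250000, 250000, 1000000⟩ = true :=
  Bool.and_eq_true_iff.2 ⟨join6_ok, part15_ok⟩

def join8 : Tree := .sb 187500 join5 join7

theorem join8_ok : check join8 ⟨375000, 500000, 375000, 1000000, 125000, 250000, 250000, 1000000⟩ = true :=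
  Bool.and_eq_true_iff.2 ⟨join5_ok, join7_ok⟩

def join9 : Tree := .sg 375000 part10 join8

theorem join9_ok : check join9 ⟨375000, 500000, 250000, 1000000, 125000, 250000, 250000, 1000000⟩ = true :=
  Bool.and_eq_true_iff.2 ⟨part10_ok, join8_ok⟩

def join10 : Tree := .sa 375000 part9 join9

theorem join10_ok : check join10 ⟨250000, 500000, 250000, 1000000, 125000, 250000, 250000, 1000000⟩ = true :=
  Bool.and_eq_true_iff.2 ⟨part9_ok, join9_ok⟩

def join11 : Tree := .sq 250000 part8 join10

theorem join11_ok : check join11 ⟨250000, 500000, 250000, 1000000, 125000, 250000, 0, 1000000⟩ = true :=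
  Bool.and_eq_true_iff.2 ⟨part8_ok, join10_ok⟩

def join12 : Tree := .sb 125000 join4 join11

theorem join12_ok : check join12 ⟨250000, 500000, 250000, 1000000, 0, 250000, 0, 1000000⟩ = true :=
  Bool.and_eq_true_iff.2 ⟨join4_ok, join11_ok⟩

def join13 : Tree := .sg 250000 part1 join12

theorem join13_ok : check join13 ⟨250000, 500000, 0, 1000000, 0, 250000, 0, 1000000⟩ = true :=
  Bool.and_eq_true_iff.2 ⟨part1_ok, join12_ok⟩

def join14 : Tree := .sa 250000 part0 join13

theorem join14_ok : check join14 ⟨0, 500000, 0, 1000000, 0, 250000, 0, 1000000⟩ = true :=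
  Bool.and_eq_true_iff.2 ⟨part0_ok, join13_ok⟩

def join15 : Tree := .sb 250000 join14 part16

theorem join15_ok : check join15 ⟨0, 500000, 0, 1000000, 0, 500000, 0, 1000000⟩ = true :=
  Bool.and_eq_true_iff.2 ⟨join14_ok, part16_ok⟩

def join16 : Tree := .sq 250000 part18 part19

theorem join16_ok : check join16 ⟨500000, 750000, 250000, 500000, 0, 125000, 0, 1000000⟩ = true :=
  Bool.and_eq_true_iff.2 ⟨part18_ok, part19_ok⟩

def join17 : Tree := .sb 187500 part22 part23

theorem join17_ok : check join17 ⟨500000, 625000, 375000, 500000, 125000, 250000, 250000, 1000000⟩ = true :=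
  Bool.and_eq_true_iff.2 ⟨part22_ok, part23_ok⟩

def join18 : Tree := .sg 375000 part21 join17

theorem join18_ok : check join18 ⟨500000, 625000, 250000, 500000, 125000, 250000, 250000, 1000000⟩ = true :=
  Bool.and_eq_true_iff.2 ⟨part21_ok, join17_ok⟩

def join19 : Tree := .sa 625000 join18 part24

theorem join19_ok : check join19 ⟨500000, 750000, 250000, 500000, 125000, 250000, 250000, 1000000⟩ = true :=
  Bool.and_eq_true_iff.2 ⟨join18_ok, part24_ok⟩

def join20 : Tree := .sq 250000 part20 join19

theorem join20_ok : check join20 ⟨500000, 750000, 250000, 500000, 125000, 250000, 0, 1000000⟩ = true :=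
  Bool.and_eq_true_iff.2 ⟨part20_ok, join19_ok⟩

def join21 : Tree := .sb 125000 join16 join20

theorem join21_ok : check join21 ⟨500000, 750000, 250000, 500000, 0, 250000, 0, 1000000⟩ = true :=
  Bool.and_eq_true_iff.2 ⟨join16_ok, join20_ok⟩

def join22 : Tree := .sg 250000 part17 join21

theorem join22_ok : check join22 ⟨500000, 750000, 0, 500000, 0, 250000, 0, 1000000⟩ = true :=
  Bool.and_eq_true_iff.2 ⟨part17_ok, join21_ok⟩

def join23 : Tree := .sa 750000 join22 part25

theorem join23_ok : check join23 ⟨500000, 1000000, 0, 500000, 0, 250000, 0, 1000000⟩ = true :=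
  Bool.and_eq_true_iff.2 ⟨join22_ok, part25_ok⟩

def join24 : Tree := .sb 250000 join23 part26

theorem join24_ok : check join24 ⟨500000, 1000000, 0, 500000, 0, 500000, 0, 1000000⟩ = true :=
  Bool.and_eq_true_iff.2 ⟨join23_ok, part26_ok⟩

def join25 : Tree := .sa 625000 part27 part28

theorem join25_ok : check join25 ⟨500000, 750000, 500000, 1000000, 0, 125000, 0, 250000⟩ = true :=
  Bool.and_eq_true_iff.2 ⟨part27_ok, part28_ok⟩

def join26 : Tree := .sq 375000 part29 part30

theorem join26_ok : check join26 ⟨500000, 625000, 500000, 1000000, 0, 62500, 250000, 500000⟩ = true :=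
  Bool.and_eq_true_iff.2 ⟨part29_ok, part30_ok⟩

def join27 : Tree := .sb 62500 join26 part31

theorem join27_ok : check join27 ⟨500000, 625000, 500000, 1000000, 0, 125000, 250000, 500000⟩ = true :=
  Bool.and_eq_true_iff.2 ⟨join26_ok, part31_ok⟩

def join28 : Tree := .sa 726562 part38 part39

theorem join28_ok : check join28 ⟨718750, 734375, 687500, 1000000, 0, 1953, 437500, 500000⟩ = true :=
  Bool.and_eq_true_iff.2 ⟨part38_ok, part39_ok⟩

def join29 : Tree := .sa 738281 part40 part41

theorem join29_ok : check join29 ⟨734375, 742187, 687500, 1000000, 0, 1953, 437500, 500000⟩ = true :=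
  Bool.and_eq_true_iff.2 ⟨part40_ok, part41_ok⟩

def join30 : Tree := .sa 744140 part45 part46

theorem join30_ok : check join30 ⟨742187, 746093, 716796, 1000000, 0, 976, 484375, 500000⟩ = true :=
  Bool.and_eq_true_iff.2 ⟨part45_ok, part46_ok⟩

def join31 : Tree := .sq 484375 part44 join30

theorem join31_ok : check join31 ⟨742187, 746093, 716796, 1000000, 0, 976, 468750, 500000⟩ = true :=
  Bool.and_eq_true_iff.2 ⟨part44_ok, join30_ok⟩

def join32 : Tree := .sb 976 join31 part47

theorem join32_ok : check join32 ⟨742187, 746093, 716796, 1000000, 0, 1953, 468750, 500000⟩ = true :=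
  Bool.and_eq_true_iff.2 ⟨join31_ok, part47_ok⟩

def join33 : Tree := .sq 468750 part43 join32

theorem join33_ok : check join33 ⟨742187, 746093, 716796, 1000000, 0, 1953, 437500, 500000⟩ = true :=
  Bool.and_eq_true_iff.2 ⟨part43_ok, join32_ok⟩

def join34 : Tree := .sg 716796 part42 join33

theorem join34_ok : check join34 ⟨742187, 746093, 687500, 1000000, 0, 1953, 437500, 500000⟩ = true :=
  Bool.and_eq_true_iff.2 ⟨part42_ok, join33_ok⟩

def join35 : Tree := .sa 748046 part50 part51

theorem join35_ok : check join35 ⟨746093, 750000, 718750, 1000000, 0, 976, 468750, 484375⟩ = true :=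
  Bool.and_eq_true_iff.2 ⟨part50_ok, part51_ok⟩

def join36 : Tree := .sa 748046 part52 part53

theorem join36_ok : check join36 ⟨746093, 750000, 718750, 1000000, 0, 976, 484375, 500000⟩ = true :=
  Bool.and_eq_true_iff.2 ⟨part52_ok, part53_ok⟩

def join37 : Tree := .sq 484375 join35 join36

theorem join37_ok : check join37 ⟨746093, 750000, 718750, 1000000, 0, 976, 468750, 500000⟩ = true :=
  Bool.and_eq_true_iff.2 ⟨join35_ok, join36_ok⟩

def join38 : Tree := .sb 976 join37 part54

theorem join38_ok : check join38 ⟨746093, 750000, 718750, 1000000, 0, 1953, 468750, 500000⟩ = true :=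
  Bool.and_eq_true_iff.2 ⟨join37_ok, part54_ok⟩

def join39 : Tree := .sq 468750 part49 join38

theorem join39_ok : check join39 ⟨746093, 750000, 718750, 1000000, 0, 1953, 437500, 500000⟩ = true :=
  Bool.and_eq_true_iff.2 ⟨part49_ok, join38_ok⟩

def join40 : Tree := .sg 718750 part48 join39

theorem join40_ok : check join40 ⟨746093, 750000, 687500, 1000000, 0, 1953, 437500, 500000⟩ = true :=
  Bool.and_eq_true_iff.2 ⟨part48_ok, join39_ok⟩

def join41 : Tree := .sa 746093 join34 join40

theorem join41_ok : check join41 ⟨742187, 750000, 687500, 1000000, 0, 1953, 437500, 500000⟩ = true :=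
  Bool.and_eq_true_iff.2 ⟨join34_ok, join40_ok⟩

def join42 : Tree := .sa 742187 join29 join41

theorem join42_ok : check join42 ⟨734375, 750000, 687500, 1000000, 0, 1953, 437500, 500000⟩ = true :=
  Bool.and_eq_true_iff.2 ⟨join29_ok, join41_ok⟩

def join43 : Tree := .sa 734375 join28 join42

theorem join43_ok : check join43 ⟨718750, 750000, 687500, 1000000, 0, 1953, 437500, 500000⟩ = true :=
  Bool.and_eq_true_iff.2 ⟨join28_ok, join42_ok⟩

def join44 : Tree := .sb 1953 join43 part55

theorem join44_ok : check join44 ⟨718750, 750000, 687500, 1000000, 0, 3906, 437500, 500000⟩ = true :=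
  Bool.and_eq_true_iff.2 ⟨join43_ok, part55_ok⟩

def join45 : Tree := .sa 718750 part37 join44

theorem join45_ok : check join45 ⟨687500, 750000, 687500, 1000000, 0, 3906, 437500, 500000⟩ = true :=
  Bool.and_eq_true_iff.2 ⟨part37_ok, join44_ok⟩

def join46 : Tree := .sb 3906 join45 part56

theorem join46_ok : check join46 ⟨687500, 750000, 687500, 1000000, 0, 7812, 437500, 500000⟩ = true :=
  Bool.and_eq_true_iff.2 ⟨join45_ok, part56_ok⟩

def join47 : Tree := .sb 7812 join46 part57

theorem join47_ok : check join47 ⟨687500, 750000, 687500, 1000000, 0, 15625, 437500, 500000⟩ = true :=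
  Bool.and_eq_true_iff.2 ⟨join46_ok, part57_ok⟩

def join48 : Tree := .sb 15625 join47 part58

theorem join48_ok : check join48 ⟨687500, 750000, 687500, 1000000, 0, 31250, 437500, 500000⟩ = true :=
  Bool.and_eq_true_iff.2 ⟨join47_ok, part58_ok⟩

def join49 : Tree := .sq 437500 part36 join48

theorem join49_ok : check join49 ⟨687500, 750000, 687500, 1000000, 0, 31250, 375000, 500000⟩ = true :=
  Bool.and_eq_true_iff.2 ⟨part36_ok, join48_ok⟩

def join50 : Tree := .sb 31250 join49 part59

theorem join50_ok : check join50 ⟨687500, 750000, 687500, 1000000, 0, 62500, 375000, 500000⟩ = true :=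
  Bool.and_eq_true_iff.2 ⟨join49_ok, part59_ok⟩

def join51 : Tree := .sg 687500 part35 join50

theorem join51_ok : check join51 ⟨687500, 750000, 625000, 1000000, 0, 62500, 375000, 500000⟩ = true :=
  Bool.and_eq_true_iff.2 ⟨part35_ok, join50_ok⟩

def join52 : Tree := .sa 687500 part34 join51

theorem join52_ok : check join52 ⟨625000, 750000, 625000, 1000000, 0, 62500, 375000, 500000⟩ = true :=
  Bool.and_eq_true_iff.2 ⟨part34_ok, join51_ok⟩

def join53 : Tree := .sq 375000 part33 join52

theorem join53_ok : check join53 ⟨625000, 750000, 625000, 1000000, 0, 62500, 250000, 500000⟩ = true :=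
  Bool.and_eq_true_iff.2 ⟨part33_ok, join52_ok⟩

def join54 : Tree := .sb 62500 join53 part60

theorem join54_ok : check join54 ⟨625000, 750000, 625000, 1000000, 0, 125000, 250000, 500000⟩ = true :=
  Bool.and_eq_true_iff.2 ⟨join53_ok, part60_ok⟩

def join55 : Tree := .sg 625000 part32 join54

theorem join55_ok : check join55 ⟨625000, 750000, 500000, 1000000, 0, 125000, 250000, 500000⟩ = true :=
  Bool.and_eq_true_iff.2 ⟨part32_ok, join54_ok⟩

def join56 : Tree := .sa 625000 join27 join55

theorem join56_ok : check join56 ⟨500000, 750000, 500000, 1000000, 0, 125000, 250000, 500000⟩ = true :=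
  Bool.and_eq_true_iff.2 ⟨join27_ok, join55_ok⟩

def join57 : Tree := .sq 250000 join25 join56

theorem join57_ok : check join57 ⟨500000, 750000, 500000, 1000000, 0, 125000, 0, 500000⟩ = true :=
  Bool.and_eq_true_iff.2 ⟨join25_ok, join56_ok⟩

def join58 : Tree := .sq 375000 part62 part63

theorem join58_ok : check join58 ⟨500000, 625000, 500000, 1000000, 125000, 187500, 250000, 500000⟩ = true :=
  Bool.and_eq_true_iff.2 ⟨part62_ok, part63_ok⟩

def join59 : Tree := .sb 187500 join58 part64

theorem join59_ok : check join59 ⟨500000, 625000, 500000, 1000000, 125000, 250000, 250000, 500000⟩ = true :=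
  Bool.and_eq_true_iff.2 ⟨join58_ok, part64_ok⟩

def join60 : Tree := .sa 625000 join59 part65

theorem join60_ok : check join60 ⟨500000, 750000, 500000, 1000000, 125000, 250000, 250000, 500000⟩ = true :=
  Bool.and_eq_true_iff.2 ⟨join59_ok, part65_ok⟩

def join61 : Tree := .sq 250000 part61 join60

theorem join61_ok : check join61 ⟨500000, 750000, 500000, 1000000, 125000, 250000, 0, 500000⟩ = true :=
  Bool.and_eq_true_iff.2 ⟨part61_ok, join60_ok⟩

def join62 : Tree := .sb 125000 join57 join61

theorem join62_ok : check join62 ⟨500000, 750000, 500000, 1000000, 0, 250000, 0, 500000⟩ = true :=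
  Bool.and_eq_true_iff.2 ⟨join57_ok, join61_ok⟩

def join63 : Tree := .sa 751953 part73 part74

theorem join63_ok : check join63 ⟨750000, 753906, 718750, 750000, 0, 976, 468750, 484375⟩ = true :=
  Bool.and_eq_true_iff.2 ⟨part73_ok, part74_ok⟩

def join64 : Tree := .sa 751953 part75 part76

theorem join64_ok : check join64 ⟨750000, 753906, 718750, 750000, 0, 976, 484375, 500000⟩ = true :=
  Bool.and_eq_true_iff.2 ⟨part75_ok, part76_ok⟩

def join65 : Tree := .sq 484375 join63 join64

theorem join65_ok : check join65 ⟨750000, 753906, 718750, 750000, 0, 976, 468750, 500000⟩ = true :=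
  Bool.and_eq_true_iff.2 ⟨join63_ok, join64_ok⟩

def join66 : Tree := .sb 976 join65 part77

theorem join66_ok : check join66 ⟨750000, 753906, 718750, 750000, 0, 1953, 468750, 500000⟩ = true :=
  Bool.and_eq_true_iff.2 ⟨join65_ok, part77_ok⟩

def join67 : Tree := .sq 468750 part72 join66

theorem join67_ok : check join67 ⟨750000, 753906, 718750, 750000, 0, 1953, 437500, 500000⟩ = true :=
  Bool.and_eq_true_iff.2 ⟨part72_ok, join66_ok⟩

def join68 : Tree := .sa 755859 part79 part80

theorem join68_ok : check join68 ⟨753906, 757812, 718750, 750000, 0, 976, 468750, 484375⟩ = true :=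
  Bool.and_eq_true_iff.2 ⟨part79_ok, part80_ok⟩

def join69 : Tree := .sa 755859 part81 part82

theorem join69_ok : check join69 ⟨753906, 757812, 718750, 750000, 0, 976, 484375, 500000⟩ = true :=
  Bool.and_eq_true_iff.2 ⟨part81_ok, part82_ok⟩

def join70 : Tree := .sq 484375 join68 join69

theorem join70_ok : check join70 ⟨753906, 757812, 718750, 750000, 0, 976, 468750, 500000⟩ = true :=
  Bool.and_eq_true_iff.2 ⟨join68_ok, join69_ok⟩

def join71 : Tree := .sb 976 join70 part83

theorem join71_ok : check join71 ⟨753906, 757812, 718750, 750000, 0, 1953, 468750, 500000⟩ = true :=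
  Bool.and_eq_true_iff.2 ⟨join70_ok, part83_ok⟩

def join72 : Tree := .sq 468750 part78 join71

theorem join72_ok : check join72 ⟨753906, 757812, 718750, 750000, 0, 1953, 437500, 500000⟩ = true :=
  Bool.and_eq_true_iff.2 ⟨part78_ok, join71_ok⟩

def join73 : Tree := .sa 753906 join67 join72

theorem join73_ok : check join73 ⟨750000, 757812, 718750, 750000, 0, 1953, 437500, 500000⟩ = true :=
  Bool.and_eq_true_iff.2 ⟨join67_ok, join72_ok⟩

def join74 : Tree := .sq 484375 part85 part86

theorem join74_ok : check join74 ⟨757812, 761718, 718750, 750000, 0, 976, 468750, 500000⟩ = true :=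
  Bool.and_eq_true_iff.2 ⟨part85_ok, part86_ok⟩

def join75 : Tree := .sb 976 join74 part87

theorem join75_ok : check join75 ⟨757812, 761718, 718750, 750000, 0, 1953, 468750, 500000⟩ = true :=
  Bool.and_eq_true_iff.2 ⟨join74_ok, part87_ok⟩

def join76 : Tree := .sq 468750 part84 join75

theorem join76_ok : check join76 ⟨757812, 761718, 718750, 750000, 0, 1953, 437500, 500000⟩ = true :=
  Bool.and_eq_true_iff.2 ⟨part84_ok, join75_ok⟩

def join77 : Tree := .sa 761718 join76 part88

theorem join77_ok : check join77 ⟨757812, 765625, 718750, 750000, 0, 1953, 437500, 500000⟩ = true :=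
  Bool.and_eq_true_iff.2 ⟨join76_ok, part88_ok⟩

def join78 : Tree := .sa 757812 join73 join77

theorem join78_ok : check join78 ⟨750000, 765625, 718750, 750000, 0, 1953, 437500, 500000⟩ = true :=
  Bool.and_eq_true_iff.2 ⟨join73_ok, join77_ok⟩

def join79 : Tree := .sg 718750 part71 join78

theorem join79_ok : check join79 ⟨750000, 765625, 687500, 750000, 0, 1953, 437500, 500000⟩ = true :=
  Bool.and_eq_true_iff.2 ⟨part71_ok, join78_ok⟩

def join80 : Tree := .sa 765625 join79 part89

theorem join80_ok : check join80 ⟨750000, 781250, 687500, 750000, 0, 1953, 437500, 500000⟩ = true :=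
  Bool.and_eq_true_iff.2 ⟨join79_ok, part89_ok⟩

def join81 : Tree := .sb 1953 join80 part90

theorem join81_ok : check join81 ⟨750000, 781250, 687500, 750000, 0, 3906, 437500, 500000⟩ = true :=
  Bool.and_eq_true_iff.2 ⟨join80_ok, part90_ok⟩

def join82 : Tree := .sa 781250 join81 part91

theorem join82_ok : check join82 ⟨750000, 812500, 687500, 750000, 0, 3906, 437500, 500000⟩ = true :=
  Bool.and_eq_true_iff.2 ⟨join81_ok, part91_ok⟩

def join83 : Tree := .sb 3906 join82 part92

theorem join83_ok : check join83 ⟨750000, 812500, 687500, 750000, 0, 7812, 437500, 500000⟩ = true :=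
  Bool.and_eq_true_iff.2 ⟨join82_ok, part92_ok⟩

def join84 : Tree := .sb 7812 join83 part93

theorem join84_ok : check join84 ⟨750000, 812500, 687500, 750000, 0, 15625, 437500, 500000⟩ = true :=
  Bool.and_eq_true_iff.2 ⟨join83_ok, part93_ok⟩

def join85 : Tree := .sb 15625 join84 part94

theorem join85_ok : check join85 ⟨750000, 812500, 687500, 750000, 0, 31250, 437500, 500000⟩ = true :=
  Bool.and_eq_true_iff.2 ⟨join84_ok, part94_ok⟩

def join86 : Tree := .sq 437500 part70 join85

theorem join86_ok : check join86 ⟨750000, 812500, 687500, 750000, 0, 31250, 375000, 500000⟩ = true :=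
  Bool.and_eq_true_iff.2 ⟨part70_ok, join85_ok⟩

def join87 : Tree := .sb 31250 join86 part95

theorem join87_ok : check join87 ⟨750000, 812500, 687500, 750000, 0, 62500, 375000, 500000⟩ = true :=
  Bool.and_eq_true_iff.2 ⟨join86_ok, part95_ok⟩

def join88 : Tree := .sg 687500 part69 join87

theorem join88_ok : check join88 ⟨750000, 812500, 625000, 750000, 0, 62500, 375000, 500000⟩ = true :=
  Bool.and_eq_true_iff.2 ⟨part69_ok, join87_ok⟩

def join89 : Tree := .sa 812500 join88 part96

theorem join89_ok : check join89 ⟨750000, 875000, 625000, 750000, 0, 62500, 375000, 500000⟩ = true :=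
  Bool.and_eq_true_iff.2 ⟨join88_ok, part96_ok⟩

def join90 : Tree := .sq 375000 part68 join89

theorem join90_ok : check join90 ⟨750000, 875000, 625000, 750000, 0, 62500, 250000, 500000⟩ = true :=
  Bool.and_eq_true_iff.2 ⟨part68_ok, join89_ok⟩

def join91 : Tree := .sb 62500 join90 part97

theorem join91_ok : check join91 ⟨750000, 875000, 625000, 750000, 0, 125000, 250000, 500000⟩ = true :=
  Bool.and_eq_true_iff.2 ⟨join90_ok, part97_ok⟩

def join92 : Tree := .sg 625000 part67 join91

theorem join92_ok : check join92 ⟨750000, 875000, 500000, 750000, 0, 125000, 250000, 500000⟩ = true :=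
  Bool.and_eq_true_iff.2 ⟨part67_ok, join91_ok⟩

def join93 : Tree := .sa 875000 join92 part98

theorem join93_ok : check join93 ⟨750000, 1000000, 500000, 750000, 0, 125000, 250000, 500000⟩ = true :=
  Bool.and_eq_true_iff.2 ⟨join92_ok, part98_ok⟩

def join94 : Tree := .sq 250000 part66 join93

theorem join94_ok : check join94 ⟨750000, 1000000, 500000, 750000, 0, 125000, 0, 500000⟩ = true :=
  Bool.and_eq_true_iff.2 ⟨part66_ok, join93_ok⟩

def join95 : Tree := .sb 125000 join94 part99

theorem join95_ok : check join95 ⟨750000, 1000000, 500000, 750000, 0, 250000, 0, 500000⟩ = true :=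
  Bool.and_eq_true_iff.2 ⟨join94_ok, part99_ok⟩

def join96 : Tree := .sa 773437 part104 part105

theorem join96_ok : check join96 ⟨765625, 781250, 750000, 1000000, 0, 1953, 437500, 500000⟩ = true :=
  Bool.and_eq_true_iff.2 ⟨part104_ok, part105_ok⟩

def join97 : Tree := .sa 765625 part103 join96

theorem join97_ok : check join97 ⟨750000, 781250, 750000, 1000000, 0, 1953, 437500, 500000⟩ = true :=
  Bool.and_eq_true_iff.2 ⟨part103_ok, join96_ok⟩

def join98 : Tree := .sb 1953 join97 part106

theorem join98_ok : check join98 ⟨750000, 781250, 750000, 1000000, 0, 3906, 437500, 500000⟩ = true :=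
  Bool.and_eq_true_iff.2 ⟨join97_ok, part106_ok⟩

def join99 : Tree := .sa 781250 join98 part107

theorem join99_ok : check join99 ⟨750000, 812500, 750000, 1000000, 0, 3906, 437500, 500000⟩ = true :=
  Bool.and_eq_true_iff.2 ⟨join98_ok, part107_ok⟩

def join100 : Tree := .sb 3906 join99 part108

theorem join100_ok : check join100 ⟨750000, 812500, 750000, 1000000, 0, 7812, 437500, 500000⟩ = true :=
  Bool.and_eq_true_iff.2 ⟨join99_ok, part108_ok⟩

def join101 : Tree := .sb 7812 join100 part109

theorem join101_ok : check join101 ⟨750000, 812500, 750000, 1000000, 0, 15625, 437500, 500000⟩ = true :=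
  Bool.and_eq_true_iff.2 ⟨join100_ok, part109_ok⟩

def join102 : Tree := .sb 15625 join101 part110

theorem join102_ok : check join102 ⟨750000, 812500, 750000, 1000000, 0, 31250, 437500, 500000⟩ = true :=
  Bool.and_eq_true_iff.2 ⟨join101_ok, part110_ok⟩

def join103 : Tree := .sq 437500 part102 join102

theorem join103_ok : check join103 ⟨750000, 812500, 750000, 1000000, 0, 31250, 375000, 500000⟩ = true :=
  Bool.and_eq_true_iff.2 ⟨part102_ok, join102_ok⟩

def join104 : Tree := .sb 31250 join103 part111

theorem join104_ok : check join104 ⟨750000, 812500, 750000, 1000000, 0, 62500, 375000, 500000⟩ = true :=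
  Bool.and_eq_true_iff.2 ⟨join103_ok, part111_ok⟩

def join105 : Tree := .sa 812500 join104 part112

theorem join105_ok : check join105 ⟨750000, 875000, 750000, 1000000, 0, 62500, 375000, 500000⟩ = true :=
  Bool.and_eq_true_iff.2 ⟨join104_ok, part112_ok⟩

def join106 : Tree := .sq 375000 part101 join105

theorem join106_ok : check join106 ⟨750000, 875000, 750000, 1000000, 0, 62500, 250000, 500000⟩ = true :=
  Bool.and_eq_true_iff.2 ⟨part101_ok, join105_ok⟩

def join107 : Tree := .sb 62500 join106 part113

theorem join107_ok : check join107 ⟨750000, 875000, 750000, 1000000, 0, 125000, 250000, 500000⟩ = true :=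
  Bool.and_eq_true_iff.2 ⟨join106_ok, part113_ok⟩

def join108 : Tree := .sa 875000 join107 part114

theorem join108_ok : check join108 ⟨750000, 1000000, 750000, 1000000, 0, 125000, 250000, 500000⟩ = true :=
  Bool.and_eq_true_iff.2 ⟨join107_ok, part114_ok⟩

def join109 : Tree := .sq 250000 part100 join108

theorem join109_ok : check join109 ⟨750000, 1000000, 750000, 1000000, 0, 125000, 0, 500000⟩ = true :=
  Bool.and_eq_true_iff.2 ⟨part100_ok, join108_ok⟩

def join110 : Tree := .sb 125000 join109 part115

theorem join110_ok : check join110 ⟨750000, 1000000, 750000, 1000000, 0, 250000, 0, 500000⟩ = true :=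
  Bool.and_eq_true_iff.2 ⟨join109_ok, part115_ok⟩

def join111 : Tree := .sg 750000 join95 join110

theorem join111_ok : check join111 ⟨750000, 1000000, 500000, 1000000, 0, 250000, 0, 500000⟩ = true :=
  Bool.and_eq_true_iff.2 ⟨join95_ok, join110_ok⟩

def join112 : Tree := .sa 750000 join62 join111

theorem join112_ok : check join112 ⟨500000, 1000000, 500000, 1000000, 0, 250000, 0, 500000⟩ = true :=
  Bool.and_eq_true_iff.2 ⟨join62_ok, join111_ok⟩

def join113 : Tree := .sa 726562 part121 part122

theorem join113_ok : check join113 ⟨718750, 734375, 687500, 1000000, 0, 1953, 500000, 562500⟩ = true :=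
  Bool.and_eq_true_iff.2 ⟨part121_ok, part122_ok⟩

def join114 : Tree := .sq 531250 part123 part124

theorem join114_ok : check join114 ⟨734375, 742187, 687500, 1000000, 0, 1953, 500000, 562500⟩ = true :=
  Bool.and_eq_true_iff.2 ⟨part123_ok, part124_ok⟩

def join115 : Tree := .sa 744140 part126 part127

theorem join115_ok : check join115 ⟨742187, 746093, 716796, 1000000, 0, 976, 500000, 515625⟩ = true :=
  Bool.and_eq_true_iff.2 ⟨part126_ok, part127_ok⟩

def join116 : Tree := .sq 515625 join115 part128

theorem join116_ok : check join116 ⟨742187, 746093, 716796, 1000000, 0, 976, 500000, 531250⟩ = true :=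
  Bool.and_eq_true_iff.2 ⟨join115_ok, part128_ok⟩

def join117 : Tree := .sb 976 join116 part129

theorem join117_ok : check join117 ⟨742187, 746093, 716796, 1000000, 0, 1953, 500000, 531250⟩ = true :=
  Bool.and_eq_true_iff.2 ⟨join116_ok, part129_ok⟩

def join118 : Tree := .sg 716796 part125 join117

theorem join118_ok : check join118 ⟨742187, 746093, 687500, 1000000, 0, 1953, 500000, 531250⟩ = true :=
  Bool.and_eq_true_iff.2 ⟨part125_ok, join117_ok⟩

def join119 : Tree := .sa 748046 part131 part132

theorem join119_ok : check join119 ⟨746093, 750000, 718750, 1000000, 0, 976, 500000, 515625⟩ = true :=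
  Bool.and_eq_true_iff.2 ⟨part131_ok, part132_ok⟩

def join120 : Tree := .sq 523437 part133 part134

theorem join120_ok : check join120 ⟨746093, 750000, 718750, 1000000, 0, 976, 515625, 531250⟩ = true :=
  Bool.and_eq_true_iff.2 ⟨part133_ok, part134_ok⟩

def join121 : Tree := .sq 515625 join119 join120

theorem join121_ok : check join121 ⟨746093, 750000, 718750, 1000000, 0, 976, 500000, 531250⟩ = true :=
  Bool.and_eq_true_iff.2 ⟨join119_ok, join120_ok⟩

def join122 : Tree := .sb 976 join121 part135

theorem join122_ok : check join122 ⟨746093, 750000, 718750, 1000000, 0, 1953, 500000, 531250⟩ = true :=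
  Bool.and_eq_true_iff.2 ⟨join121_ok, part135_ok⟩

def join123 : Tree := .sg 718750 part130 join122

theorem join123_ok : check join123 ⟨746093, 750000, 687500, 1000000, 0, 1953, 500000, 531250⟩ = true :=
  Bool.and_eq_true_iff.2 ⟨part130_ok, join122_ok⟩

def join124 : Tree := .sa 746093 join118 join123

theorem join124_ok : check join124 ⟨742187, 750000, 687500, 1000000, 0, 1953, 500000, 531250⟩ = true :=
  Bool.and_eq_true_iff.2 ⟨join118_ok, join123_ok⟩

def join125 : Tree := .sq 531250 join124 part136

theorem join125_ok : check join125 ⟨742187, 750000, 687500, 1000000, 0, 1953, 500000, 562500⟩ = true :=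
  Bool.and_eq_true_iff.2 ⟨join124_ok, part136_ok⟩

def join126 : Tree := .sa 742187 join114 join125

theorem join126_ok : check join126 ⟨734375, 750000, 687500, 1000000, 0, 1953, 500000, 562500⟩ = true :=
  Bool.and_eq_true_iff.2 ⟨join114_ok, join125_ok⟩

def join127 : Tree := .sa 734375 join113 join126

theorem join127_ok : check join127 ⟨718750, 750000, 687500, 1000000, 0, 1953, 500000, 562500⟩ = true :=
  Bool.and_eq_true_iff.2 ⟨join113_ok, join126_ok⟩

def join128 : Tree := .sb 1953 join127 part137

theorem join128_ok : check join128 ⟨718750, 750000, 687500, 1000000, 0, 3906, 500000, 562500⟩ = true :=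
  Bool.and_eq_true_iff.2 ⟨join127_ok, part137_ok⟩

def join129 : Tree := .sa 718750 part120 join128

theorem join129_ok : check join129 ⟨687500, 750000, 687500, 1000000, 0, 3906, 500000, 562500⟩ = true :=
  Bool.and_eq_true_iff.2 ⟨part120_ok, join128_ok⟩

def join130 : Tree := .sb 3906 join129 part138

theorem join130_ok : check join130 ⟨687500, 750000, 687500, 1000000, 0, 7812, 500000, 562500⟩ = true :=
  Bool.and_eq_true_iff.2 ⟨join129_ok, part138_ok⟩

def join131 : Tree := .sb 7812 join130 part139

theorem join131_ok : check join131 ⟨687500, 750000, 687500, 1000000, 0, 15625, 500000, 562500⟩ = true :=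
  Bool.and_eq_true_iff.2 ⟨join130_ok, part139_ok⟩

def join132 : Tree := .sb 15625 join131 part140

theorem join132_ok : check join132 ⟨687500, 750000, 687500, 1000000, 0, 31250, 500000, 562500⟩ = true :=
  Bool.and_eq_true_iff.2 ⟨join131_ok, part140_ok⟩

def join133 : Tree := .sq 562500 join132 part141

theorem join133_ok : check join133 ⟨687500, 750000, 687500, 1000000, 0, 31250, 500000, 625000⟩ = true :=
  Bool.and_eq_true_iff.2 ⟨join132_ok, part141_ok⟩

def join134 : Tree := .sb 31250 join133 part142

theorem join134_ok : check join134 ⟨687500, 750000, 687500, 1000000, 0, 62500, 500000, 625000⟩ = true :=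
  Bool.and_eq_true_iff.2 ⟨join133_ok, part142_ok⟩

def join135 : Tree := .sg 687500 part119 join134

theorem join135_ok : check join135 ⟨687500, 750000, 625000, 1000000, 0, 62500, 500000, 625000⟩ = true :=
  Bool.and_eq_true_iff.2 ⟨part119_ok, join134_ok⟩

def join136 : Tree := .sa 687500 part118 join135

theorem join136_ok : check join136 ⟨625000, 750000, 625000, 1000000, 0, 62500, 500000, 625000⟩ = true :=
  Bool.and_eq_true_iff.2 ⟨part118_ok, join135_ok⟩

def join137 : Tree := .sq 625000 join136 part143

theorem join137_ok : check join137 ⟨625000, 750000, 625000, 1000000, 0, 62500, 500000, 1000000⟩ = true :=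
  Bool.and_eq_true_iff.2 ⟨join136_ok, part143_ok⟩

def join138 : Tree := .sb 62500 join137 part144

theorem join138_ok : check join138 ⟨625000, 750000, 625000, 1000000, 0, 125000, 500000, 1000000⟩ = true :=
  Bool.and_eq_true_iff.2 ⟨join137_ok, part144_ok⟩

def join139 : Tree := .sg 625000 part117 join138

theorem join139_ok : check join139 ⟨625000, 750000, 500000, 1000000, 0, 125000, 500000, 1000000⟩ = true :=
  Bool.and_eq_true_iff.2 ⟨part117_ok, join138_ok⟩

def join140 : Tree := .sa 625000 part116 join139

theorem join140_ok : check join140 ⟨500000, 750000, 500000, 1000000, 0, 125000, 500000, 1000000⟩ = true :=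
  Bool.and_eq_true_iff.2 ⟨part116_ok, join139_ok⟩

def join141 : Tree := .sb 125000 join140 part145

theorem join141_ok : check join141 ⟨500000, 750000, 500000, 1000000, 0, 250000, 500000, 1000000⟩ = true :=
  Bool.and_eq_true_iff.2 ⟨join140_ok, part145_ok⟩

def join142 : Tree := .sa 751953 part149 part150

theorem join142_ok : check join142 ⟨750000, 753906, 718750, 750000, 0, 976, 500000, 515625⟩ = true :=
  Bool.and_eq_true_iff.2 ⟨part149_ok, part150_ok⟩

def join143 : Tree := .sa 751953 part151 part152

theorem join143_ok : check join143 ⟨750000, 753906, 718750, 750000, 0, 976, 515625, 531250⟩ = true :=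
  Bool.and_eq_true_iff.2 ⟨part151_ok, part152_ok⟩

def join144 : Tree := .sq 515625 join142 join143

theorem join144_ok : check join144 ⟨750000, 753906, 718750, 750000, 0, 976, 500000, 531250⟩ = true :=
  Bool.and_eq_true_iff.2 ⟨join142_ok, join143_ok⟩

def join145 : Tree := .sb 976 join144 part153

theorem join145_ok : check join145 ⟨750000, 753906, 718750, 750000, 0, 1953, 500000, 531250⟩ = true :=
  Bool.and_eq_true_iff.2 ⟨join144_ok, part153_ok⟩

def join146 : Tree := .sq 531250 join145 part154

theorem join146_ok : check join146 ⟨750000, 753906, 718750, 750000, 0, 1953, 500000, 562500⟩ = true :=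
  Bool.and_eq_true_iff.2 ⟨join145_ok, part154_ok⟩

def join147 : Tree := .sa 755859 part155 part156

theorem join147_ok : check join147 ⟨753906, 757812, 718750, 750000, 0, 976, 500000, 515625⟩ = true :=
  Bool.and_eq_true_iff.2 ⟨part155_ok, part156_ok⟩

def join148 : Tree := .sa 755859 part157 part158

theorem join148_ok : check join148 ⟨753906, 757812, 718750, 750000, 0, 976, 515625, 531250⟩ = true :=
  Bool.and_eq_true_iff.2 ⟨part157_ok, part158_ok⟩

def join149 : Tree := .sq 515625 join147 join148

theorem join149_ok : check join149 ⟨753906, 757812, 718750, 750000, 0, 976, 500000, 531250⟩ = true :=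
  Bool.and_eq_true_iff.2 ⟨join147_ok, join148_ok⟩

def join150 : Tree := .sb 976 join149 part159

theorem join150_ok : check join150 ⟨753906, 757812, 718750, 750000, 0, 1953, 500000, 531250⟩ = true :=
  Bool.and_eq_true_iff.2 ⟨join149_ok, part159_ok⟩

def join151 : Tree := .sq 531250 join150 part160

theorem join151_ok : check join151 ⟨753906, 757812, 718750, 750000, 0, 1953, 500000, 562500⟩ = true :=
  Bool.and_eq_true_iff.2 ⟨join150_ok, part160_ok⟩

def join152 : Tree := .sa 753906 join146 join151

theorem join152_ok : check join152 ⟨750000, 757812, 718750, 750000, 0, 1953, 500000, 562500⟩ = true :=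
  Bool.and_eq_true_iff.2 ⟨join146_ok, join151_ok⟩

def join153 : Tree := .sg 718750 part148 join152

theorem join153_ok : check join153 ⟨750000, 757812, 687500, 750000, 0, 1953, 500000, 562500⟩ = true :=
  Bool.and_eq_true_iff.2 ⟨part148_ok, join152_ok⟩

def join154 : Tree := .sq 515625 part162 part163

theorem join154_ok : check join154 ⟨757812, 761718, 718750, 750000, 0, 976, 500000, 531250⟩ = true :=
  Bool.and_eq_true_iff.2 ⟨part162_ok, part163_ok⟩

def join155 : Tree := .sb 976 join154 part164

theorem join155_ok : check join155 ⟨757812, 761718, 718750, 750000, 0, 1953, 500000, 531250⟩ = true :=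
  Bool.and_eq_true_iff.2 ⟨join154_ok, part164_ok⟩

def join156 : Tree := .sq 531250 join155 part165

theorem join156_ok : check join156 ⟨757812, 761718, 718750, 750000, 0, 1953, 500000, 562500⟩ = true :=
  Bool.and_eq_true_iff.2 ⟨join155_ok, part165_ok⟩

def join157 : Tree := .sa 761718 join156 part166

theorem join157_ok : check join157 ⟨757812, 765625, 718750, 750000, 0, 1953, 500000, 562500⟩ = true :=
  Bool.and_eq_true_iff.2 ⟨join156_ok, part166_ok⟩

def join158 : Tree := .sg 718750 part161 join157

theorem join158_ok : check join158 ⟨757812, 765625, 687500, 750000, 0, 1953, 500000, 562500⟩ = true :=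
  Bool.and_eq_true_iff.2 ⟨part161_ok, join157_ok⟩

def join159 : Tree := .sa 757812 join153 join158

theorem join159_ok : check join159 ⟨750000, 765625, 687500, 750000, 0, 1953, 500000, 562500⟩ = true :=
  Bool.and_eq_true_iff.2 ⟨join153_ok, join158_ok⟩

def join160 : Tree := .sg 718750 part167 part168

theorem join160_ok : check join160 ⟨765625, 781250, 687500, 750000, 0, 1953, 500000, 562500⟩ = true :=
  Bool.and_eq_true_iff.2 ⟨part167_ok, part168_ok⟩

def join161 : Tree := .sa 765625 join159 join160

theorem join161_ok : check join161 ⟨750000, 781250, 687500, 750000, 0, 1953, 500000, 562500⟩ = true :=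
  Bool.and_eq_true_iff.2 ⟨join159_ok, join160_ok⟩

def join162 : Tree := .sb 1953 join161 part169

theorem join162_ok : check join162 ⟨750000, 781250, 687500, 750000, 0, 3906, 500000, 562500⟩ = true :=
  Bool.and_eq_true_iff.2 ⟨join161_ok, part169_ok⟩

def join163 : Tree := .sa 781250 join162 part170

theorem join163_ok : check join163 ⟨750000, 812500, 687500, 750000, 0, 3906, 500000, 562500⟩ = true :=
  Bool.and_eq_true_iff.2 ⟨join162_ok, part170_ok⟩

def join164 : Tree := .sb 3906 join163 part171

theorem join164_ok : check join164 ⟨750000, 812500, 687500, 750000, 0, 7812, 500000, 562500⟩ = true :=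
  Bool.and_eq_true_iff.2 ⟨join163_ok, part171_ok⟩

def join165 : Tree := .sb 7812 join164 part172

theorem join165_ok : check join165 ⟨750000, 812500, 687500, 750000, 0, 15625, 500000, 562500⟩ = true :=
  Bool.and_eq_true_iff.2 ⟨join164_ok, part172_ok⟩

def join166 : Tree := .sb 15625 join165 part173

theorem join166_ok : check join166 ⟨750000, 812500, 687500, 750000, 0, 31250, 500000, 562500⟩ = true :=
  Bool.and_eq_true_iff.2 ⟨join165_ok, part173_ok⟩

def join167 : Tree := .sq 562500 join166 part174

theorem join167_ok : check join167 ⟨750000, 812500, 687500, 750000, 0, 31250, 500000, 625000⟩ = true :=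
  Bool.and_eq_true_iff.2 ⟨join166_ok, part174_ok⟩

def join168 : Tree := .sb 31250 join167 part175

theorem join168_ok : check join168 ⟨750000, 812500, 687500, 750000, 0, 62500, 500000, 625000⟩ = true :=
  Bool.and_eq_true_iff.2 ⟨join167_ok, part175_ok⟩

def join169 : Tree := .sg 687500 part147 join168

theorem join169_ok : check join169 ⟨750000, 812500, 625000, 750000, 0, 62500, 500000, 625000⟩ = true :=
  Bool.and_eq_true_iff.2 ⟨part147_ok, join168_ok⟩

def join170 : Tree := .sa 812500 join169 part176

theorem join170_ok : check join170 ⟨750000, 875000, 625000, 750000, 0, 62500, 500000, 625000⟩ = true :=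
  Bool.and_eq_true_iff.2 ⟨join169_ok, part176_ok⟩

def join171 : Tree := .sq 625000 join170 part177

theorem join171_ok : check join171 ⟨750000, 875000, 625000, 750000, 0, 62500, 500000, 1000000⟩ = true :=
  Bool.and_eq_true_iff.2 ⟨join170_ok, part177_ok⟩

def join172 : Tree := .sb 62500 join171 part178

theorem join172_ok : check join172 ⟨750000, 875000, 625000, 750000, 0, 125000, 500000, 1000000⟩ = true :=
  Bool.and_eq_true_iff.2 ⟨join171_ok, part178_ok⟩

def join173 : Tree := .sg 625000 part146 join172

theorem join173_ok : check join173 ⟨750000, 875000, 500000, 750000, 0, 125000, 500000, 1000000⟩ = true :=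
  Bool.and_eq_true_iff.2 ⟨part146_ok, join172_ok⟩

def join174 : Tree := .sa 875000 join173 part179

theorem join174_ok : check join174 ⟨750000, 1000000, 500000, 750000, 0, 125000, 500000, 1000000⟩ = true :=
  Bool.and_eq_true_iff.2 ⟨join173_ok, part179_ok⟩

def join175 : Tree := .sb 125000 join174 part180

theorem join175_ok : check join175 ⟨750000, 1000000, 500000, 750000, 0, 250000, 500000, 1000000⟩ = true :=
  Bool.and_eq_true_iff.2 ⟨join174_ok, part180_ok⟩

def join176 : Tree := .sa 773437 part182 part183

theorem join176_ok : check join176 ⟨765625, 781250, 750000, 1000000, 0, 1953, 500000, 562500⟩ = true :=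
  Bool.and_eq_true_iff.2 ⟨part182_ok, part183_ok⟩

def join177 : Tree := .sa 765625 part181 join176

theorem join177_ok : check join177 ⟨750000, 781250, 750000, 1000000, 0, 1953, 500000, 562500⟩ = true :=
  Bool.and_eq_true_iff.2 ⟨part181_ok, join176_ok⟩

def join178 : Tree := .sb 1953 join177 part184

theorem join178_ok : check join178 ⟨750000, 781250, 750000, 1000000, 0, 3906, 500000, 562500⟩ = true :=
  Bool.and_eq_true_iff.2 ⟨join177_ok, part184_ok⟩

def join179 : Tree := .sa 796875 part185 part186

theorem join179_ok : check join179 ⟨781250, 812500, 750000, 1000000, 0, 1953, 500000, 562500⟩ = true :=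
  Bool.and_eq_true_iff.2 ⟨part185_ok, part186_ok⟩

def join180 : Tree := .sb 1953 join179 part187

theorem join180_ok : check join180 ⟨781250, 812500, 750000, 1000000, 0, 3906, 500000, 562500⟩ = true :=
  Bool.and_eq_true_iff.2 ⟨join179_ok, part187_ok⟩

def join181 : Tree := .sa 781250 join178 join180

theorem join181_ok : check join181 ⟨750000, 812500, 750000, 1000000, 0, 3906, 500000, 562500⟩ = true :=
  Bool.and_eq_true_iff.2 ⟨join178_ok, join180_ok⟩

def join182 : Tree := .sb 3906 join181 part188

theorem join182_ok : check join182 ⟨750000, 812500, 750000, 1000000, 0, 7812, 500000, 562500⟩ = true :=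
  Bool.and_eq_true_iff.2 ⟨join181_ok, part188_ok⟩

def join183 : Tree := .sb 7812 join182 part189

theorem join183_ok : check join183 ⟨750000, 812500, 750000, 1000000, 0, 15625, 500000, 562500⟩ = true :=
  Bool.and_eq_true_iff.2 ⟨join182_ok, part189_ok⟩

def join184 : Tree := .sb 15625 join183 part190

theorem join184_ok : check join184 ⟨750000, 812500, 750000, 1000000, 0, 31250, 500000, 562500⟩ = true :=
  Bool.and_eq_true_iff.2 ⟨join183_ok, part190_ok⟩

def join185 : Tree := .sq 562500 join184 part191

theorem join185_ok : check join185 ⟨750000, 812500, 750000, 1000000, 0, 31250, 500000, 625000⟩ = true :=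
  Bool.and_eq_true_iff.2 ⟨join184_ok, part191_ok⟩

def join186 : Tree := .sb 31250 join185 part192

theorem join186_ok : check join186 ⟨750000, 812500, 750000, 1000000, 0, 62500, 500000, 625000⟩ = true :=
  Bool.and_eq_true_iff.2 ⟨join185_ok, part192_ok⟩

def join187 : Tree := .sa 812500 join186 part193

theorem join187_ok : check join187 ⟨750000, 875000, 750000, 1000000, 0, 62500, 500000, 625000⟩ = true :=
  Bool.and_eq_true_iff.2 ⟨join186_ok, part193_ok⟩

def join188 : Tree := .sq 625000 join187 part194

theorem join188_ok : check join188 ⟨750000, 875000, 750000, 1000000, 0, 62500, 500000, 750000⟩ = true :=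
  Bool.and_eq_true_iff.2 ⟨join187_ok, part194_ok⟩

def join189 : Tree := .sb 62500 join188 part195

theorem join189_ok : check join189 ⟨750000, 875000, 750000, 1000000, 0, 125000, 500000, 750000⟩ = true :=
  Bool.and_eq_true_iff.2 ⟨join188_ok, part195_ok⟩

def join190 : Tree := .sg 875000 part196 part197

theorem join190_ok : check join190 ⟨875000, 1000000, 750000, 1000000, 0, 125000, 500000, 750000⟩ = true :=
  Bool.and_eq_true_iff.2 ⟨part196_ok, part197_ok⟩

def join191 : Tree := .sa 875000 join189 join190

theorem join191_ok : check join191 ⟨750000, 1000000, 750000, 1000000, 0, 125000, 500000, 750000⟩ = true :=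
  Bool.and_eq_true_iff.2 ⟨join189_ok, join190_ok⟩

def join192 : Tree := .sa 875000 part198 part199

theorem join192_ok : check join192 ⟨750000, 1000000, 750000, 1000000, 0, 125000, 750000, 1000000⟩ = true :=
  Bool.and_eq_true_iff.2 ⟨part198_ok, part199_ok⟩

def join193 : Tree := .sq 750000 join191 join192

theorem join193_ok : check join193 ⟨750000, 1000000, 750000, 1000000, 0, 125000, 500000, 1000000⟩ = true :=
  Bool.and_eq_true_iff.2 ⟨join191_ok, join192_ok⟩

def join194 : Tree := .sb 125000 join193 part200

theorem join194_ok : check join194 ⟨750000, 1000000, 750000, 1000000, 0, 250000, 500000, 1000000⟩ = true :=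
  Bool.and_eq_true_iff.2 ⟨join193_ok, part200_ok⟩

def join195 : Tree := .sg 750000 join175 join194

theorem join195_ok : check join195 ⟨750000, 1000000, 500000, 1000000, 0, 250000, 500000, 1000000⟩ = true :=
  Bool.and_eq_true_iff.2 ⟨join175_ok, join194_ok⟩

def join196 : Tree := .sa 750000 join141 join195

theorem join196_ok : check join196 ⟨500000, 1000000, 500000, 1000000, 0, 250000, 500000, 1000000⟩ = true :=
  Bool.and_eq_true_iff.2 ⟨join141_ok, join195_ok⟩

def join197 : Tree := .sq 500000 join112 join196

theorem join197_ok : check join197 ⟨500000, 1000000, 500000, 1000000, 0, 250000, 0, 1000000⟩ = true :=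
  Bool.and_eq_true_iff.2 ⟨join112_ok, join196_ok⟩

def join198 : Tree := .sb 250000 join197 part201

theorem join198_ok : check join198 ⟨500000, 1000000, 500000, 1000000, 0, 500000, 0, 1000000⟩ = true :=
  Bool.and_eq_true_iff.2 ⟨join197_ok, part201_ok⟩

def join199 : Tree := .sg 500000 join24 join198

theorem join199_ok : check join199 ⟨500000, 1000000, 0, 1000000, 0, 500000, 0, 1000000⟩ = true :=
  Bool.and_eq_true_iff.2 ⟨join24_ok, join198_ok⟩

def join200 : Tree := .sa 500000 join15 join199

theorem join200_ok : check join200 ⟨0, 1000000, 0, 1000000, 0, 500000, 0, 1000000⟩ = true :=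
  Bool.and_eq_true_iff.2 ⟨join15_ok, join199_ok⟩

/-- The certificate of case B. -/
def cert : Tree := join200

theorem cert_ok : check cert root = true := join200_ok

end Vale.Agent.P232.CaseB
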