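import Mathlib.Data.Int.Notation
import Mathlib.Data.Nat.Notation

/-!
# P232: the integer checker for the certificate of case B

All numbers are in units of `10 ^ (-6)`. A box of `(α, γ, β, q)` carries constants `c₁, c₂, l, k`;
on each small interval the squares of the two slice bounds have affine minorants, so the weights
have concave minorants and the trapezoid rule bounds their integrals from below.
-/

namespace Vale.Agent.P232.CaseB

/-- The unit denominator. -/
def dd : ℤ := 1000000

/-- A lower bound of `π`. -/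
def pl : ℤ := 3141592

/-- An upper bound of `π`. -/
def ph : ℤ := 3141593

/-- A lower bound of `tiltConst (3 / 10)`. -/
def wTilt : ℤ := 984759

/-- The data of a leaf. -/
structure Cal where
  c₁ : ℤ
  c₂ : ℤ
  l : ℤ
  dens : ℤ

/-- A box of `(α, γ, β, q)`. -/
structure Box where
  a₀ : ℤ
  a₁ : ℤ
  g₀ : ℤ
  g₁ : ℤ
  b₀ : ℤ
  b₁ : ℤ
  q₀ : ℤ
  q₁ : ℤ

/-- The smallest box with the same admissible parameters. -/
def Box.clamp : Box → Box
  | ⟨a₀, a₁, g₀, g₁, b₀, b₁, q₀, q₁⟩ =>
    ⟨max a₀ (max g₀ (max b₀ q₀)), a₁, max g₀ (max b₀ q₀), min g₁ a₁, b₀, min b₁ (min g₁ a₁),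
      q₀, min q₁ (min g₁ a₁)⟩

/-- Newton's iteration for a square root. -/
def newt : ℕ → ℤ → ℤ → ℤ
  | 0, _, u => u
  | n + 1, x, u => newt n x ((u + x / u) / 2)

/-- A candidate for a lower bound of `√x`. -/
def sqLo (x : ℤ) : ℤ :=
  if x ≤ 0 then 0
  else
    min (newt 5 x (if x < 40000000000 then 100000 else (dd + x / dd) / 2))
      (x / newt 5 x (if x < 40000000000 then 100000 else (dd + x / dd) / 2))

/-- `G₊²`. -/
def posSq (g : ℤ) : ℤ := if 0 < g then g * g else 0

/-- The weight at a node with slice bound squared `y` and line value `g`. -/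
def fval (g y : ℤ) : ℤ := sqLo (dd * dd - (posSq g + y - 1) / y)

/-- The node is valid with weight `f`. -/
def okNode (g y f : ℤ) : Bool :=
  decide (0 ≤ y ∧ 0 ≤ f ∧ f ≤ dd ∧ f * f * y + posSq g ≤ dd * dd * y)

/-- The leg bound at `z`, rounded down. -/
def leg (q₀ z : ℤ) : ℤ := (dd - z) * dd / (dd - q₀) + pl * (dd - q₀) / (4 * dd)

/-- Whether the tangent of the squared leg bound serves on `[u, w]`. -/
def useLeg (q₀ u w : ℤ) : Bool :=
  decide (0 < dd - q₀ ∧ ph * (dd - q₀) * (dd - q₀) ≤ 4 * dd * dd * (dd - w) ∧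
    0 ≤ leg q₀ ((u + w) / 2) ∧
    pl * (dd - w) ≤ 2 * leg q₀ ((u + w) / 2) * leg q₀ w - leg q₀ ((u + w) / 2) * leg q₀ ((u + w) / 2))

/-- The minorant of `pPre ^ 2` on `[u, w]`, at `z`. -/
def y₁ (q₀ u w z : ℤ) : ℤ :=
  if useLeg q₀ u w then
    2 * leg q₀ ((u + w) / 2) * leg q₀ z - leg q₀ ((u + w) / 2) * leg q₀ ((u + w) / 2)
  else pl * (dd - z)

/-- The tilted line at `z`, rounded down. -/
def tilt (q₁ z : ℤ) : ℤ := 300000 * (z - q₁) / dd + wTilt

/-- The minorant of `(max 1 tilt) ^ 2` on `[u, w]`, at `z`. -/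
def yMid (q₁ u w z : ℤ) : ℤ :=
  if dd < tilt q₁ ((u + w) / 2) then
    2 * tilt q₁ ((u + w) / 2) * tilt q₁ z - tilt q₁ ((u + w) / 2) * tilt q₁ ((u + w) / 2)
  else dd * dd

/-- The minorant of the squared bound through both far edges, at `z`. -/
def yBoth (q₁ u w z : ℤ) : ℤ :=
  if 2 * ((dd - q₁) * (dd - q₁)) ≤ pl * (dd - (u + w) / 2) then pl * (dd - z)
  else 2 * ((dd - q₁) * (dd - q₁))

/-- The minorant of `pPost ^ 2` on `[u, w]`, at `z`. -/
def y₂ (q₁ u w z : ℤ) : ℤ :=
  min (min (pl * z) (yMid q₁ u w z)) (yBoth q₁ u w z)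

/-- Line value times the denominator. -/
def line (c l z : ℤ) : ℤ := c * dd + l * z

/-- The node of the first phase. -/
def node₁ (b : Box) (k : Cal) (u w z : ℤ) : ℤ × Bool :=
  (fval (line k.c₁ k.l z) (y₁ b.q₀ u w z),
    okNode (line k.c₁ k.l z) (y₁ b.q₀ u w z) (fval (line k.c₁ k.l z) (y₁ b.q₀ u w z)))

/-- The node of the second phase. -/
def node₂ (b : Box) (k : Cal) (u w z : ℤ) : ℤ × Bool :=
  (fval (line k.c₂ k.l z) (y₂ b.q₁ u w z),
    okNode (line k.c₂ k.l z) (y₂ b.q₁ u w z) (fval (line k.c₂ k.l z) (y₂ b.q₁ u w z)))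

/-- The weights allowed at `z`: the smaller one where both phases may occur. -/
def weight (n₁ n₂ : Bool) (f₁ f₂ : ℤ) : ℤ :=
  min (if n₁ then f₁ else dd) (if n₂ then f₂ else dd)

/-- The contribution of `[u, w]`, or failure. -/
def piece (b : Box) (k : Cal) (u w : ℤ) : Option ℤ :=
  if (decide (b.g₀ < w) → (node₁ b k u w u).2 && (node₁ b k u w w).2) ∧
      (decide (u < b.g₁) → (node₂ b k u w u).2 && (node₂ b k u w w).2) then
    some (if b.b₁ ≤ u ∧ w ≤ b.a₀ then
        (w - u) *
          (weight (decide (b.g₀ < w)) (decide (u < b.g₁)) (node₁ b k u w u).1 (node₂ b k u w u).1 +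
            weight (decide (b.g₀ < w)) (decide (u < b.g₁)) (node₁ b k u w w).1 (node₂ b k u w w).1)
      else 0)
  else none

/-- The sum over a subdivision of `[u, w]` into at most `n + 1` intervals. -/
def sub (b : Box) (k : Cal) (w : ℤ) : ℕ → ℤ → Option ℤ
  | 0, u => piece b k u w
  | n + 1, u =>
    match piece b k u (u + (w - u) / ((n : ℤ) + 2)), sub b k w n (u + (w - u) / ((n : ℤ) + 2)) with
    | some s, some t => some (s + t)
    | _, _ => none

/-- The number of cuts of `[u, w]`. -/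
def cuts (b : Box) (k : Cal) (u w : ℤ) : ℕ :=
  ((w - u) * (if b.b₁ ≤ u ∧ w ≤ b.a₀ then k.dens else k.dens / 4) / dd).toNat

/-- The sum over consecutive break points. -/
def walk (b : Box) (k : Cal) : ℤ → List ℤ → Option ℤ
  | u, [] => if u = b.a₁ then some 0 else none
  | u, x :: r =>
    if x = u then walk b k u r
    else if u < x then
      match sub b k x (cuts b k u x) u, walk b k x r with
      | some s, some t => some (s + t)
      | _, _ => none
    else none

/-- Insertion into a sorted list. -/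
def ins (x : ℤ) : List ℤ → List ℤ
  | [] => [x]
  | y :: r => if x ≤ y then x :: y :: r else y :: ins x r

/-- Break points near the kinks of the two bounds. -/
def breaks (b : Box) : List ℤ :=
  (([b.b₁, b.g₀, b.g₁, b.a₀, 318310, dd - 318310,
      tilt b.q₁ 318310 * tilt b.q₁ 318310 / pl,
      dd - tilt b.q₁ (dd - 318310) * tilt b.q₁ (dd - 318310) / pl,
      dd - 2 * ((dd - b.q₁) * (dd - b.q₁)) / pl,
      dd - ph * (dd - b.q₀) * (dd - b.q₀) / (4 * dd * dd),
      b.q₁ + (dd - wTilt) * dd / 300000,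
      b.a₁]).map fun x => max b.b₀ (min b.a₁ x)).foldr ins []

/-- The strict comparison with the v-free demand of the slope `l`, in units `20 D²`. -/
def okEnd (l F : ℤ) : Bool :=
  if l < 0 then decide (20 * dd * dd - 10 * dd * l < F)
  else if 2 * l ≤ pl then decide (20 * dd * dd * (ph - l) < F * ph)
  else decide (5 * ph * dd * dd < F * l)

/-- A leaf on a clamped box. -/
def okLeaf (b : Box) (k : Cal) : Bool :=
  (node₁ b k b.g₀ b.g₀ b.g₀).2 && (node₂ b k b.g₁ b.g₁ b.g₁).2 &&
    match walk b k b.b₀ (breaks b) with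
    | some s => okEnd k.l (2 * dd * (k.c₁ + 9 * k.c₂) + 10 * s)
    | none => false

/-- No admissible parameters lie in the clamped box. -/
def isVac (b : Box) : Bool :=
  decide (b.g₁ < b.g₀) || decide (b.a₁ < b.a₀) || decide (b.b₁ < b.b₀) || decide (b.q₁ < b.q₀) ||
    decide (5 * dd < b.g₀ + 9 * b.b₀)

/-- A bisection tree; `corner` is the neighbourhood of the slab. -/
inductive Tree where
  | none
  | corner
  | leaf (c₁ c₂ l dens : ℤ)
  | sa (t : ℤ) (lo hi : Tree)
  | sg (t : ℤ) (lo hi : Tree)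
  | sb (t : ℤ) (lo hi : Tree)
  | sq (t : ℤ) (lo hi : Tree)

/-- The tree is a certificate for the box. -/
def check : Tree → Box → Bool
  | .none, b => isVac b.clamp
  | .corner, b => decide (dd - 1000 ≤ b.clamp.a₀ ∧ b.clamp.b₁ ≤ 1000)
  | .leaf c₁ c₂ l n, b => okLeaf b.clamp ⟨c₁, c₂, l, n⟩
  | .sa t x y, b => check x { b with a₁ := t } && check y { b with a₀ := t }
  | .sg t x y, b => check x { b with g₁ := t } && check y { b with g₀ := t }
  | .sb t x y, b => check x { b with b₁ := t } && check y { b with b₀ := t }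
  | .sq t x y, b => check x { b with q₁ := t } && check y { b with q₀ := t }

/-- The box of all parameters. -/
def root : Box := ⟨0, dd, 0, dd, 0, 500000, 0, dd⟩

end Vale.Agent.P232.CaseB
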