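import Vale.Agent.P232.OneDim.CaseB.Leaf
import Vale.Agent.P232.Rigid.Core.Specs

/-!
# P232: case B near the slab

For `α ≥ 999/1000` and `β ≤ 1/1000` the calibration `c₂ = 3 β`, `l = -3 β`,
`c₁ = 3 β + 16 (1 - α)` gives at least `1 + (β + (1 - α)) / 5`.
-/

open MeasureTheory Set Real

namespace Vale.Agent.P232.CaseB

/-- The calibration near the slab. -/
def cornerCal (p : ℝ × ℝ × ℝ × ℝ) : ℝ × ℝ × ℝ :=
  (3 * p.2.2.1 + 16 * (1 - p.1), 3 * p.2.2.1, -(3 * p.2.2.1))

theorem measurable_cornerCal : Measurable cornerCal := by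
  unfold cornerCal
  fun_prop

/-- A small ratio gives feasibility and a weight near one. -/
theorem sig_ge {c l a x : ℝ} {p : ℝ → ℝ} (hp : 0 ≤ p a) (hx0 : 0 ≤ x) (hx : x ≤ 11 / 20)
    (h : max (c + l * a) 0 ^ 2 ≤ x * p a ^ 2) :
    c + l * a ≤ p a ∧ 1 - 3 / 5 * x ≤ sig c l p a := by
  refine ⟨(le_max_left _ 0).trans (abs_le_of_sq_le_sq' ?_ hp).2, ?_⟩
  · nlinarith [mul_nonneg (sub_nonneg.2 hx) (sq_nonneg (p a)), sq_nonneg (p a)]
  · refine Real.le_sqrt_of_sq_le ?_
    rcases hp.eq_or_lt with e | e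
    · rw [← e]
      simp
      exact abs_le.2 ⟨by linarith, by linarith⟩
    · have : (max (c + l * a) 0 / p a) ^ 2 ≤ x := by
        rw [div_pow, div_le_iff₀ (by positivity)]
        exact h
      nlinarith [mul_nonneg hx0 (sub_nonneg.2 hx)]

theorem pPost_ge (q : ℝ) {a : ℝ} :
    0 ≤ pPost q a ∧ min (√(π * a)) (min 1 (√(π * (1 - a)))) ≤ pPost q a := by
  have h : min (√(π * a)) (min 1 (√(π * (1 - a)))) ≤ pPost q a :=
    min_le_min le_rfl (min_le_min (le_max_left _ _) (le_max_left _ _))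
  exact ⟨le_trans (le_min (sqrt_nonneg _) (le_min zero_le_one (sqrt_nonneg _))) h, h⟩

/-- `e log (1/e)` is small for small `e`. -/
theorem mul_log_le {e : ℝ} (h0 : 0 < e) (h1 : e ≤ 1 / 1000) :
    e * -Real.log e ≤ 7 / 1000 := by
  have hl : Real.log 1000 ≤ 6989 / 1000 := by
    have e1 : Real.log 1000 = 3 * (3 * Real.log 2 + Real.log (5 / 4)) := by
      rw [show (1000 : ℝ) = (2 ^ 3 * (5 / 4)) ^ 3 by norm_num, Real.log_pow,
        Real.log_mul (by norm_num) (by norm_num), Real.log_pow]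
      norm_num
    rw [e1]
    linarith [Real.log_le_sub_one_of_pos (show (0 : ℝ) < 5 / 4 by norm_num), Real.log_two_lt_d9]
  have h2 : -Real.log e ≤ Real.log 1000 + (1 / (1000 * e) - 1) := by
    have := Real.log_le_sub_one_of_pos (show 0 < 1 / (1000 * e) by positivity)
    rw [Real.log_div (by norm_num) (by positivity), Real.log_one,
      Real.log_mul (by norm_num) h0.ne'] at this
    linarith
  calc e * -Real.log e ≤ e * (5989 / 1000 + 1 / (1000 * e)) :=
        mul_le_mul_of_nonneg_left (by linarith) h0.le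
    _ = 5989 / 1000 * e + 1 / 1000 := by field_simp
    _ ≤ _ := by linarith

/-- The loss near the far end. -/
theorem loss_one {e γ α : ℝ} (he : e = 1 - α) (h0 : 0 ≤ e) (h1 : e ≤ 1 / 1000) (hg : γ ≤ α)
    (hg0 : 0 ≤ γ) :
    IntervalIntegrable (fun a => e ^ 2 * (1 - a)⁻¹) volume γ α ∧
      ∫ a in γ..α, e ^ 2 * (1 - a)⁻¹ ≤ 7 / 1000 * e := by
  rcases h0.eq_or_lt with hz | hz
  · simp [← hz]
  refine ⟨?_, ?_⟩
  · refine ContinuousOn.intervalIntegrable ?_
    rw [uIcc_of_le hg]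
    exact continuousOn_const.mul ((continuousOn_const.sub continuousOn_id).inv₀
      fun a ha => (show (0 : ℝ) < 1 - a by linarith [ha.2]).ne')
  rw [intervalIntegral.integral_const_mul,
    intervalIntegral.integral_comp_sub_left (f := fun a => a⁻¹) 1,
    integral_inv_of_pos (by linarith) (by linarith), ← he,
    Real.log_div (by linarith) hz.ne']
  have := Real.log_nonpos (show 0 ≤ 1 - γ by linarith) (by linarith)
  nlinarith [mul_le_mul_of_nonneg_left (mul_log_le hz h1) h0]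

/-- The loss near the near end. -/
theorem loss_two {β γ : ℝ} (h0 : 0 ≤ β) (h1 : β ≤ 1 / 1000) (hg : β ≤ γ) (hg1 : γ ≤ 1) :
    IntervalIntegrable (fun a => β ^ 2 * a⁻¹) volume β γ ∧
      ∫ a in β..γ, β ^ 2 * a⁻¹ ≤ 7 / 1000 * β := by
  rcases h0.eq_or_lt with hz | hz
  · simp [← hz]
  refine ⟨?_, ?_⟩
  · refine ContinuousOn.intervalIntegrable ?_
    rw [uIcc_of_le hg]
    exact continuousOn_const.mul (continuousOn_id.inv₀ fun a ha => (hz.trans_le ha.1).ne')
  rw [intervalIntegral.integral_const_mul, integral_inv_of_pos hz (by linarith),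
    Real.log_div (by linarith) hz.ne']
  have := Real.log_nonpos (show 0 ≤ γ by linarith) hg1
  nlinarith [mul_le_mul_of_nonneg_left (mul_log_le hz h1) h0]

theorem sig_intervalIntegrable (c l q x y : ℝ) :
    IntervalIntegrable (sig c l (pPre q)) volume x y ∧
      IntervalIntegrable (sig c l (pPost q)) volume x y :=
  ⟨integrable_of_mem (measurable_sig_pre _ _ _) (sig_mem _ _ _) _ _,
    integrable_of_mem (measurable_sig_post _ _ _) (sig_mem _ _ _) _ _⟩

/-- The first phase near the slab. -/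
theorem corner_pre {α γ β q a : ℝ} (hα : 999 / 1000 ≤ α) (hα1 : α ≤ 1) (hb : 0 ≤ β)
    (hb1 : β ≤ 1 / 1000) (hq : q ≤ γ) (ha : a ∈ Icc γ α) (hγ : 0 ≤ γ) :
    (3 * β + 16 * (1 - α)) + -(3 * β) * a ≤ pPre q a ∧
      1 - (54 * ((1 - α) ^ 2 * (1 - a)⁻¹) + 19 * β ^ 2) ≤
        sig (3 * β + 16 * (1 - α)) (-(3 * β)) (pPre q) a := by
  obtain ⟨ha0, ha1⟩ := ha
  obtain ⟨hp, hsq⟩ := pPre_sq_ge (hq.trans ha0) (ha1.trans hα1)
  have hu0 : 0 ≤ 1 - a := by linarith
  have hu1 : 1 - a ≤ 1 := by linarith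
  have hw := mul_le_mul_of_nonneg_left pi_gt_d6.le hu0
  have hE : 0 ≤ (1 - α) ^ 2 * (1 - a)⁻¹ := by positivity
  have hEu : (1 - α) ^ 2 * (1 - a)⁻¹ ≤ 1 / 1000 := by
    rcases hu0.eq_or_lt with e | e
    · simp [← e]
    · rw [← div_eq_mul_inv, div_le_iff₀ e]
      nlinarith
  have hsplit : ((1 - α) ^ 2 * (1 - a)⁻¹) * (1 - a) = (1 - α) ^ 2 := by
    rcases hu0.eq_or_lt with e | e
    · have : 1 - α = 0 := by linarith
      simp [this]
    · field_simp
  have hg0 : 0 ≤ (3 * β + 16 * (1 - α)) + -(3 * β) * a := by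
    nlinarith
  obtain ⟨h1, h2⟩ := sig_ge (c := 3 * β + 16 * (1 - α)) (l := -(3 * β)) (p := pPre q)
    (x := 90 * ((1 - α) ^ 2 * (1 - a)⁻¹) + 63 / 2 * β ^ 2) hp (by positivity) (by nlinarith) (by
      rw [max_eq_left hg0]
      refine le_trans ?_ (mul_le_mul_of_nonneg_left hsq (by positivity))
      have e : (90 * ((1 - α) ^ 2 * (1 - a)⁻¹) + 63 / 2 * β ^ 2) * (π * (1 - a))
          = π * (90 * (1 - α) ^ 2 + 63 / 2 * β ^ 2 * (1 - a)) := by
        linear_combination 90 * π * hsplit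
      rw [e]
      have hm := mul_le_mul_of_nonneg_right pi_gt_d6.le
        (show 0 ≤ 90 * (1 - α) ^ 2 + 63 / 2 * β ^ 2 * (1 - a) by positivity)
      nlinarith [sq_nonneg (16 * (1 - α) - 30 * β * (1 - a)),
        mul_le_mul_of_nonneg_left hu1 (mul_nonneg (sq_nonneg β) hu0)])
  exact ⟨h1, by linarith [sq_nonneg β]⟩

/-- The second phase near the slab. -/
theorem corner_post {γ β q a : ℝ} (hb : 0 ≤ β) (hb1 : β ≤ 1 / 1000) (ha : a ∈ Icc β γ)
    (hγ : γ ≤ 1) :
    3 * β + -(3 * β) * a ≤ pPost q a ∧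
      1 - (2 * (β ^ 2 * a⁻¹) + 8 * β ^ 2) ≤ sig (3 * β) (-(3 * β)) (pPost q) a := by
  obtain ⟨ha0, ha1⟩ := ha
  obtain ⟨hp, hmin⟩ := pPost_ge q (a := a)
  have hu0 : 0 ≤ 1 - a := by linarith
  have hu1 : 1 - a ≤ 1 := by linarith
  have ha' : 0 ≤ a := hb.trans ha0
  have hA : 0 ≤ β ^ 2 * a⁻¹ := by positivity
  have hA1 : β ^ 2 * a⁻¹ ≤ 1 / 1000 := by
    rcases ha'.eq_or_lt with e | e
    · simp [← e]
    · rw [← div_eq_mul_inv, div_le_iff₀ e]
      nlinarith
  have hsplit : β ^ 2 * a⁻¹ * a = β ^ 2 := by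
    rcases ha'.eq_or_lt with e | e
    · have : β = 0 := by linarith
      simp [this]
    · field_simp
  have hg0 : 0 ≤ 3 * β + -(3 * β) * a := by nlinarith
  have hg1 : (3 * β + -(3 * β) * a) ^ 2 ≤ 9 * β ^ 2 * (1 - a) := by
    nlinarith [mul_nonneg (mul_nonneg (sq_nonneg β) hu0) (sub_nonneg.2 hu1)]
  obtain ⟨h1, h2⟩ := sig_ge (c := 3 * β) (l := -(3 * β)) (p := pPost q)
    (x := 3 * (β ^ 2 * a⁻¹) + 12 * β ^ 2) hp (by positivity) (by nlinarith) (by
      rw [max_eq_left hg0]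
      have hx : 0 ≤ 3 * (β ^ 2 * a⁻¹) + 12 * β ^ 2 := by positivity
      rcases min_choice (√(π * a)) (min 1 (√(π * (1 - a)))) with e | e
      · rw [e] at hmin
        refine le_trans ?_ (mul_le_mul_of_nonneg_left (pow_le_pow_left₀ (sqrt_nonneg _) hmin 2) hx)
        rw [sq_sqrt (by positivity)]
        have e' : (3 * (β ^ 2 * a⁻¹) + 12 * β ^ 2) * (π * a) = π * (3 * β ^ 2 + 12 * β ^ 2 * a) := by
          linear_combination 3 * π * hsplit
        rw [e']
        nlinarith [mul_le_mul_of_nonneg_right pi_gt_three.le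
          (show 0 ≤ 3 * β ^ 2 + 12 * β ^ 2 * a by positivity),
          mul_le_mul_of_nonneg_left hu1 (sq_nonneg β)]
      · rw [e] at hmin
        rcases min_choice 1 (√(π * (1 - a))) with e' | e'
        · rw [e'] at hmin
          refine le_trans ?_ (mul_le_mul_of_nonneg_left (pow_le_pow_left₀ zero_le_one hmin 2) hx)
          nlinarith [mul_le_mul_of_nonneg_left hu1 (sq_nonneg β)]
        · rw [e'] at hmin
          refine le_trans ?_ (mul_le_mul_of_nonneg_left (pow_le_pow_left₀ (sqrt_nonneg _) hmin 2) hx)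
          rw [sq_sqrt (by positivity)]
          nlinarith [mul_le_mul_of_nonneg_right pi_gt_three.le
            (show 0 ≤ 12 * β ^ 2 * (1 - a) by positivity),
            mul_nonneg hA (mul_nonneg pi_pos.le hu0)])
  exact ⟨h1, by linarith [sq_nonneg β]⟩

/-- The inequality near the slab, with a linear gain. -/
theorem corner_bound {α γ β q : ℝ} (hb : 0 ≤ β) (h1 : β ≤ γ) (h2 : γ ≤ α) (hα1 : α ≤ 1)
    (hq : q ≤ γ) (hα : 999 / 1000 ≤ α) (hb1 : β ≤ 1 / 1000) :
    Goal (3 * β + 16 * (1 - α)) (3 * β) (-(3 * β)) α γ β q ∧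
      ∀ v : ℝ, v ≤ 1 / 2 →
        cubeCandidate v + (β + (1 - α)) / 5 ≤
          Rigid.boundB (3 * β + 16 * (1 - α)) (3 * β) (-(3 * β)) α γ β q v := by
  have hγ0 : 0 ≤ γ := hb.trans h1
  have hγ1 : γ ≤ 1 := h2.trans hα1
  obtain ⟨i1, e1⟩ := loss_one (e := 1 - α) rfl (by linarith) (by linarith) h2 hγ0
  obtain ⟨i2, e2⟩ := loss_two hb hb1 h1 hγ1
  have L1 : (α - γ) - (54 * (7 / 1000 * (1 - α)) + 19 * β ^ 2 * (α - γ)) ≤
      ∫ a in γ..α, sig (3 * β + 16 * (1 - α)) (-(3 * β)) (pPre q) a := by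
    refine le_trans ?_ (intervalIntegral.integral_mono_on h2
      (intervalIntegrable_const.sub ((i1.const_mul 54).add intervalIntegrable_const))
      (sig_intervalIntegrable _ _ _ _ _).1 fun a ha => (corner_pre hα hα1 hb hb1 hq ha hγ0).2)
    rw [intervalIntegral.integral_sub intervalIntegrable_const
      ((i1.const_mul 54).add intervalIntegrable_const),
      intervalIntegral.integral_add (i1.const_mul 54) intervalIntegrable_const,
      intervalIntegral.integral_const, intervalIntegral.integral_const,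
      intervalIntegral.integral_const_mul]
    simp only [smul_eq_mul]
    linarith
  have L2 : (γ - β) - (2 * (7 / 1000 * β) + 8 * β ^ 2 * (γ - β)) ≤
      ∫ a in β..γ, sig (3 * β) (-(3 * β)) (pPost q) a := by
    refine le_trans ?_ (intervalIntegral.integral_mono_on h1
      (intervalIntegrable_const.sub ((i2.const_mul 2).add intervalIntegrable_const))
      (sig_intervalIntegrable _ _ _ _ _).2 fun a ha => (corner_post hb hb1 ha hγ1).2)
    rw [intervalIntegral.integral_sub intervalIntegrable_const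
      ((i2.const_mul 2).add intervalIntegrable_const),
      intervalIntegral.integral_add (i2.const_mul 2) intervalIntegrable_const,
      intervalIntegral.integral_const, intervalIntegral.integral_const,
      intervalIntegral.integral_const_mul]
    simp only [smul_eq_mul]
    linarith
  have key : ∀ v : ℝ, v ≤ 1 / 2 → cubeCandidate v + (β + (1 - α)) / 5 ≤
      Rigid.boundB (3 * β + 16 * (1 - α)) (3 * β) (-(3 * β)) α γ β q v := by
    intro v hv
    have hcand := (CaseC.cube_candidate_le hv).1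
    simp only [Rigid.boundB, cut]
    have q1 : 19 * β ^ 2 * (α - γ) ≤ 19 / 1000 * β := by
      nlinarith [mul_le_mul_of_nonneg_left hb1 hb,
        mul_nonneg (sq_nonneg β) (show 0 ≤ 1 - (α - γ) by linarith)]
    have q2 : 8 * β ^ 2 * (γ - β) ≤ 8 / 1000 * β := by
      nlinarith [mul_le_mul_of_nonneg_left hb1 hb,
        mul_nonneg (sq_nonneg β) (show 0 ≤ 1 - (γ - β) by linarith)]
    nlinarith [mul_nonneg hb (sub_nonneg.2 hv)]
  refine ⟨⟨fun a ha => (corner_pre hα hα1 hb hb1 hq ha hγ0).1,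
    fun a ha => (corner_post hb hb1 ha hγ1).1, fun v hv _ => ?_⟩, key⟩
  have := key v hv
  simp only [Rigid.boundB] at this
  linarith

end Vale.Agent.P232.CaseB
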