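import Vale.Agent.P232.OneDim.CaseB.Spec

/-!
# P232: the weights of the two phases of case B between two checked nodes
-/

open MeasureTheory Set Real

namespace Vale.Agent.P232.CaseB

theorem un_mono {m n : ℤ} (h : m ≤ n) : un m ≤ un n := by
  unfold un
  gcongr

/-- The convex coordinate of `a` in `[u, w]`. -/
noncomputable def coord (u w : ℤ) (a : ℝ) : ℝ := (a - un u) / (un w - un u)

theorem coord_spec {u w : ℤ} {a : ℝ} (ha : a ∈ Icc (un u) (un w)) :
    0 ≤ coord u w a ∧ coord u w a ≤ 1 ∧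
      a = (1 - coord u w a) * un u + coord u w a * un w := by
  obtain ⟨h1, h2⟩ := ha
  refine ⟨div_nonneg (by linarith) (by linarith),
    div_le_one_of_le₀ (by linarith) (by linarith), ?_⟩
  rcases eq_or_ne (un w - un u) 0 with e | e
  · simp only [coord, e, div_zero]
    linarith
  · simp only [coord]
    field_simp
    ring

/-- A value of the checker in units of `10 ^ (-12)`. -/
noncomputable def un₂ (n : ℤ) : ℝ := (n : ℝ) / 1000000000000

theorem okNode_real {c l z y f : ℤ} (h : okNode (line c l z) y f = true) :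
    0 ≤ un₂ y ∧ 0 ≤ un f ∧ un f ≤ 1 ∧
      un f ^ 2 * un₂ y + max (un c + un l * un z) 0 ^ 2 ≤ un₂ y := by
  obtain ⟨hy, hf, hf1, h4⟩ := of_decide_eq_true h
  simp only [dd] at hf1 h4
  have hy' : (0 : ℝ) ≤ y := by exact_mod_cast hy
  have hf' : (0 : ℝ) ≤ f := by exact_mod_cast hf
  have hf1' : (f : ℝ) ≤ 1000000 := by exact_mod_cast hf1
  refine ⟨by unfold un₂; positivity, by unfold un; positivity, by unfold un; linarith, ?_⟩
  have e : un c + un l * un z = (line c l z : ℝ) / 1000000000000 := by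
    simp only [un, line, dd]
    push_cast
    ring
  rw [e]
  unfold un un₂
  by_cases hg : 0 < line c l z
  · simp only [posSq, if_pos hg] at h4
    rify at h4 hg
    rw [max_eq_left (div_nonneg hg.le (by norm_num))]
    linarith
  · simp only [posSq, if_neg hg] at h4
    rify at h4 hg
    rw [max_eq_right (div_nonpos_of_nonpos_of_nonneg (not_lt.1 hg) (by norm_num))]
    linarith

theorem convex_step {q₀ q₁ g₀ g₁ f₀ f₁ t : ℝ} (ht : 0 ≤ t) (ht1 : t ≤ 1)
    (hq₀ : 0 ≤ q₀) (hq₁ : 0 ≤ q₁) (hf₀ : f₀ ^ 2 ≤ 1) (hf₁ : f₁ ^ 2 ≤ 1)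
    (h₀ : f₀ ^ 2 * q₀ + g₀ ^ 2 ≤ q₀) (h₁ : f₁ ^ 2 * q₁ + g₁ ^ 2 ≤ q₁) :
    ((1 - t) * g₀ + t * g₁) ^ 2
      ≤ (1 - ((1 - t) * f₀ + t * f₁) ^ 2) * ((1 - t) * q₀ + t * q₁) := by
  have hs : 0 ≤ 1 - t := by linarith
  have e₀ : g₀ ^ 2 ≤ (1 - f₀ ^ 2) * q₀ := by linarith
  have e₁ : g₁ ^ 2 ≤ (1 - f₁ ^ 2) * q₁ := by linarith
  have hp₀ := mul_nonneg (sub_nonneg.2 hf₀) hq₁
  have hp₁ := mul_nonneg (sub_nonneg.2 hf₁) hq₀
  have hx : 2 * (g₀ * g₁) ≤ (1 - f₀ ^ 2) * q₁ + (1 - f₁ ^ 2) * q₀ := by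
    refine (le_abs_self _).trans (abs_le_of_sq_le_sq ?_ (add_nonneg hp₀ hp₁))
    nlinarith [mul_le_mul e₀ e₁ (sq_nonneg g₁) ((sq_nonneg g₀).trans e₀),
      sq_nonneg ((1 - f₀ ^ 2) * q₁ - (1 - f₁ ^ 2) * q₀)]
  have hf : ((1 - t) * f₀ + t * f₁) ^ 2 ≤ (1 - t) * f₀ ^ 2 + t * f₁ ^ 2 := by
    nlinarith [mul_nonneg (mul_nonneg hs ht) (sq_nonneg (f₀ - f₁))]
  have hq := add_nonneg (mul_nonneg hs hq₀) (mul_nonneg ht hq₁)
  nlinarith [mul_le_mul_of_nonneg_right hf hq, mul_le_mul_of_nonneg_left e₀ (sq_nonneg (1 - t)),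
    mul_le_mul_of_nonneg_left e₁ (sq_nonneg t),
    mul_le_mul_of_nonneg_left hx (mul_nonneg hs ht)]

/-- Two checked nodes with an interpolated minorant of `p ^ 2` bound the line and the weight. -/
theorem of_nodes {c l u w yu yw fu fw : ℤ} {p : ℝ → ℝ} {a : ℝ}
    (hu : okNode (line c l u) yu fu = true) (hw : okNode (line c l w) yw fw = true)
    (ha : a ∈ Icc (un u) (un w)) (hp : 0 ≤ p a)
    (hY : (1 - coord u w a) * un₂ yu + coord u w a * un₂ yw ≤ p a ^ 2) :
    un c + un l * a ≤ p a ∧ interp u w fu fw a ≤ sig (un c) (un l) p a := by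
  obtain ⟨ht, ht1, ea⟩ := coord_spec ha
  obtain ⟨hy0, hf0, hf01, h0⟩ := okNode_real hu
  obtain ⟨hy1, hf1, hf11, h1⟩ := okNode_real hw
  set t := coord u w a with hteq
  have hst := convex_step ht ht1 hy0 hy1 (pow_le_one₀ hf0 hf01) (pow_le_one₀ hf1 hf11) h0 h1
  set F := (1 - t) * un fu + t * un fw with hF
  have hs : 0 ≤ 1 - t := by linarith
  have hF0 : 0 ≤ F := by positivity
  have hF1 : F ≤ 1 := by
    linarith [mul_le_mul_of_nonneg_left hf01 hs, mul_le_mul_of_nonneg_left hf11 ht]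
  have hF2 : 0 ≤ 1 - F ^ 2 := sub_nonneg.2 (pow_le_one₀ hF0 hF1)
  have hmax : max (un c + un l * a) 0
      ≤ (1 - t) * max (un c + un l * un u) 0 + t * max (un c + un l * un w) 0 := by
    refine max_le ?_ (by positivity)
    have h := congrArg (fun z => un c + un l * z) ea
    rw [h]
    linarith [mul_le_mul_of_nonneg_left (le_max_left (un c + un l * un u) 0) hs,
      mul_le_mul_of_nonneg_left (le_max_left (un c + un l * un w) 0) ht]
  have key : max (un c + un l * a) 0 ^ 2 ≤ (1 - F ^ 2) * p a ^ 2 :=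
    ((pow_le_pow_left₀ (le_max_right _ _) hmax 2).trans hst).trans
      (mul_le_mul_of_nonneg_left hY hF2)
  refine ⟨(le_max_left _ 0).trans (abs_le_of_sq_le_sq' ?_ hp).2, ?_⟩
  · nlinarith [mul_nonneg (sq_nonneg F) (sq_nonneg (p a))]
  · have e : interp u w fu fw a = F := by
      simp only [interp, hF, hteq, coord]
      ring
    rw [e]
    refine Real.le_sqrt_of_sq_le ?_
    rcases hp.eq_or_lt with e | e
    · rw [← e]
      simpa using hF2
    · rw [div_pow, le_sub_iff_add_le, ← le_sub_iff_add_le', div_le_iff₀ (by positivity)]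
      linarith

theorem avg_le_of_le {t x x' X X' : ℝ} (ht : 0 ≤ t) (ht1 : t ≤ 1) (h : x ≤ X) (h' : x' ≤ X') :
    (1 - t) * x + t * x' ≤ (1 - t) * X + t * X' :=
  add_le_add (mul_le_mul_of_nonneg_left h (by linarith)) (mul_le_mul_of_nonneg_left h' ht)

theorem intDiv_le (n : ℤ) {d : ℤ} (hd : 0 < d) : (((n / d : ℤ)) : ℝ) ≤ (n : ℝ) / d := by
  rw [le_div_iff₀ (by exact_mod_cast hd)]
  exact_mod_cast Int.ediv_mul_le n hd.ne'

theorem pi_bounds : (3141592 / 1000000 : ℝ) ≤ π ∧ π ≤ 3141593 / 1000000 :=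
  ⟨by linarith [pi_gt_d6], by linarith [pi_lt_d6]⟩

theorem amgm_leg {A x : ℝ} (hx : 0 < x) : π * A ≤ (A / x + π * x / 4) ^ 2 := by
  have e : π * A = 4 * (A / x) * (π * x / 4) := by field_simp
  nlinarith [sq_nonneg (A / x - π * x / 4)]

theorem pPre_sq_ge {q a : ℝ} (hqa : q ≤ a) (ha : a ≤ 1) :
    0 ≤ pPre q a ∧ π * (1 - a) ≤ pPre q a ^ 2 := by
  have hA : 0 ≤ 1 - a := by linarith
  unfold pPre
  split_ifs with h
  · have hx : 0 ≤ 1 - q := by linarith
    refine ⟨by positivity, ?_⟩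
    rcases hx.eq_or_lt with e | e
    · have : 1 - a = 0 := by linarith
      simp [this, ← e]
    · exact amgm_leg e
  · exact ⟨sqrt_nonneg _, (sq_sqrt (mul_nonneg pi_pos.le hA)).ge⟩

/-- The leg bound below the true one. -/
theorem leg_le {q₀ z : ℤ} (h : 0 < dd - q₀) :
    un (leg q₀ z) ≤ (1 - un z) / (1 - un q₀) + 3141592 / 1000000 * (1 - un q₀) / 4 := by
  have h1 := intDiv_le ((dd - z) * dd) h
  have h2 := intDiv_le (pl * (dd - q₀)) (show (0 : ℤ) < 4 * dd by norm_num [dd])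
  simp only [dd, pl] at h h1 h2
  push_cast at h1 h2
  have h' : (0 : ℝ) < 1000000 - q₀ := by exact_mod_cast h
  have e : (1000000 - (z : ℝ)) * 1000000 / (1000000 - q₀) / 1000000
      = (1 - un z) / (1 - un q₀) := by
    unfold un
    field_simp
  rw [← e]
  simp only [un, leg, dd, pl]
  push_cast
  linarith [div_le_div_of_nonneg_right h1 (by norm_num : (0 : ℝ) ≤ 1000000)]

/-- The minorant of the first phase is below the squared bound. -/
theorem y₁_le {q₀ u w : ℤ} {q a : ℝ} (hw : w ≤ dd) (hq : un q₀ ≤ q) (hqa : q ≤ a)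
    (ha : a ∈ Icc (un u) (un w)) :
    (1 - coord u w a) * un₂ (y₁ q₀ u w u) + coord u w a * un₂ (y₁ q₀ u w w) ≤ pPre q a ^ 2 := by
  obtain ⟨ht, ht1, ea⟩ := coord_spec ha
  have hw1 : un w ≤ 1 := (un_mono hw).trans_eq (by norm_num [un, dd])
  have ha1 : a ≤ 1 := ha.2.trans hw1
  obtain ⟨hp, hsq⟩ := pPre_sq_ge hqa ha1
  set t := coord u w a
  have hA : 0 ≤ 1 - a := by linarith
  have base : (1 - t) * un₂ (pl * (dd - u)) + t * un₂ (pl * (dd - w)) ≤ pPre q a ^ 2 := by
    have e : (1 - t) * un₂ (pl * (dd - u)) + t * un₂ (pl * (dd - w))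
        = 3141592 / 1000000 * (1 - ((1 - t) * un u + t * un w)) := by
      simp only [un, un₂, pl, dd]
      push_cast
      ring
    rw [e, ← ea]
    exact (mul_le_mul_of_nonneg_right pi_bounds.1 hA).trans hsq
  by_cases hl : useLeg q₀ u w = true
  swap
  · simpa [y₁, hl] using base
  simp only [y₁, if_pos hl]
  obtain ⟨h0, h1, hM, -⟩ := of_decide_eq_true hl
  set M := leg q₀ ((u + w) / 2)
  have hM' : 0 ≤ un M := by
    unfold un
    positivity
  have hy : ∀ z, un₂ (2 * M * leg q₀ z - M * M) = 2 * un M * un (leg q₀ z) - un M ^ 2 := by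
    intro z
    simp only [un, un₂]
    push_cast
    ring
  set x₀ := 1 - un q₀ with hx₀
  have hx₀' : 0 < x₀ := by
    simp only [hx₀, un]
    simp only [dd] at h0
    rify at h0
    linarith
  have hc : π * x₀ ^ 2 ≤ 4 * (1 - un w) := by
    refine (mul_le_mul_of_nonneg_right pi_bounds.2 (sq_nonneg _)).trans ?_
    simp only [hx₀, un]
    simp only [ph, dd] at h1
    rify at h1
    linarith
  have hpos : 0 < 1 - a := by
    nlinarith [mul_pos pi_pos (pow_pos hx₀' 2), ha.2]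
  have hx : 0 < 1 - q := by linarith
  have hxx : 1 - q ≤ x₀ := by linarith
  have hcond : π * (1 - q) ^ 2 ≤ 4 * (1 - a) := by
    have := mul_le_mul_of_nonneg_left (pow_le_pow_left₀ hx.le hxx 2) pi_pos.le
    linarith [ha.2]
  have hmono : (1 - a) / x₀ + 3141592 / 1000000 * x₀ / 4 ≤ pPre q a := by
    simp only [pPre, if_pos hcond]
    have hb := mul_le_mul_of_nonneg_right pi_bounds.1 hx₀'.le
    have h2 : (1 - a) / x₀ + π * x₀ / 4 ≤ (1 - a) / (1 - q) + π * (1 - q) / 4 := by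
      rw [div_add' _ _ _ hx₀'.ne', div_add' _ _ _ hx.ne', div_le_div_iff₀ hx₀' hx]
      nlinarith [mul_le_mul_of_nonneg_left hxx (mul_nonneg pi_pos.le hx₀'.le), ha.2,
        mul_nonneg (sub_nonneg.2 hxx) hpos.le]
    linarith
  have hL : (1 - t) * un (leg q₀ u) + t * un (leg q₀ w) ≤ pPre q a := by
    refine le_trans ?_ hmono
    refine (avg_le_of_le ht ht1 (leg_le h0) (leg_le h0)).trans (le_of_eq ?_)
    have h := congrArg (fun z => (1 - z) / x₀ + 3141592 / 1000000 * x₀ / 4) ea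
    rw [h]
    ring
  rw [hy, hy]
  have := mul_le_mul_of_nonneg_left hL hM'
  nlinarith [sq_nonneg (pPre q a - un M)]

/-- The first phase between two checked nodes. -/
theorem phase₁ {b : Box} {k : Cal} {u w : ℤ} {q a : ℝ} (hw : w ≤ dd) (hq : un b.q₀ ≤ q)
    (hqa : q ≤ a) (h : (node₁ b k u w u).2 = true) (h' : (node₁ b k u w w).2 = true)
    (ha : a ∈ Icc (un u) (un w)) :
    un k.c₁ + un k.l * a ≤ pPre q a ∧
      interp u w (node₁ b k u w u).1 (node₁ b k u w w).1 a ≤ sig (un k.c₁) (un k.l) (pPre q) a :=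
  of_nodes h h' ha (pPre_sq_ge hqa (ha.2.trans ((un_mono hw).trans_eq (by norm_num [un, dd])))).1
    (y₁_le hw hq hqa ha)

/-- The constant of the tilt `3 / 10`. -/
theorem wTilt_le : un wTilt ≤ tiltConst (3 / 10) := by
  have e : ∫ x in (0 : ℝ)..1, (1 - 9 / 200 * x ^ 2 - 81 / 70000 * x ^ 4)
      = 1 - 3 / 200 - 81 / 350000 := by
    rw [intervalIntegral.integral_sub (Continuous.intervalIntegrable (by fun_prop) _ _)
        (Continuous.intervalIntegrable (by fun_prop) _ _),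
      intervalIntegral.integral_sub (Continuous.intervalIntegrable (by fun_prop) _ _)
        (Continuous.intervalIntegrable (by fun_prop) _ _),
      intervalIntegral.integral_const, intervalIntegral.integral_const_mul,
      intervalIntegral.integral_const_mul, integral_pow, integral_pow]
    norm_num
  refine le_trans (show un wTilt ≤ 1 - 3 / 200 - 81 / 350000 by norm_num [un, wTilt]) ?_
  rw [← e, tiltConst]
  refine intervalIntegral.integral_mono_on zero_le_one
    (Continuous.intervalIntegrable (by fun_prop) _ _)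
    (Continuous.intervalIntegrable (by fun_prop) _ _) fun x ⟨hx0, hx1⟩ => ?_
  have hy : x ^ 2 ≤ 1 := pow_le_one₀ hx0 hx1
  refine Real.le_sqrt_of_sq_le ?_
  nlinarith [mul_nonneg (sq_nonneg (x ^ 2)) (sub_nonneg.2 hy), sq_nonneg (x ^ 2),
    mul_nonneg (mul_nonneg (sq_nonneg (x ^ 2)) (sq_nonneg x)) (sub_nonneg.2 hy)]

theorem pPost_nonneg {q a : ℝ} : 0 ≤ pPost q a :=
  le_min (sqrt_nonneg _)
    (le_min (zero_le_one.trans (le_max_left _ _)) ((sqrt_nonneg _).trans (le_max_left _ _)))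

theorem tilt_le (q₁ z : ℤ) : un (tilt q₁ z) ≤ 3 / 10 * (un z - un q₁) + un wTilt := by
  have h := intDiv_le (300000 * (z - q₁)) (show (0 : ℤ) < dd by norm_num [dd])
  simp only [dd] at h
  push_cast at h
  simp only [un, tilt, dd, wTilt]
  push_cast
  linarith

/-- The minorant of the second phase is below the squared bound. -/
theorem y₂_le {q₁ u w : ℤ} {q a : ℝ} (hu : 0 ≤ u) (hw : w ≤ dd) (hq : q ≤ un q₁) (hq1 : q₁ ≤ dd)
    (ha : a ∈ Icc (un u) (un w)) :
    (1 - coord u w a) * un₂ (y₂ q₁ u w u) + coord u w a * un₂ (y₂ q₁ u w w) ≤ pPost q a ^ 2 := by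
  obtain ⟨ht, ht1, ea⟩ := coord_spec ha
  have one : un dd = 1 := by norm_num [un, dd]
  have ha0 : 0 ≤ a := le_trans (le_trans (by norm_num [un]) (un_mono hu)) ha.1
  have hA : 0 ≤ 1 - a := by linarith [ha.2, (un_mono hw).trans_eq one]
  have hq1' : 0 ≤ 1 - un q₁ := by linarith [(un_mono hq1).trans_eq one]
  set t := coord u w a
  have mono : ∀ {m n : ℤ}, m ≤ n → un₂ m ≤ un₂ n := fun h => by
    unfold un₂
    gcongr
  have hmin : ∀ z, y₂ q₁ u w z ≤ pl * z ∧ y₂ q₁ u w z ≤ yMid q₁ u w z ∧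
      y₂ q₁ u w z ≤ yBoth q₁ u w z := fun z =>
    ⟨(min_le_left _ _).trans (min_le_left _ _), (min_le_left _ _).trans (min_le_right _ _),
      min_le_right _ _⟩
  rcases min_choice (√(π * a)) (min (max 1 (3 / 10 * (a - q) + tiltConst (3 / 10)))
      (max (√(π * (1 - a))) (√2 * (1 - q)))) with e | e
  · refine (avg_le_of_le ht ht1 (mono (hmin u).1) (mono (hmin w).1)).trans ?_
    rw [pPost, e, sq_sqrt (mul_nonneg pi_pos.le ha0)]
    refine le_trans (le_of_eq ?_) (mul_le_mul_of_nonneg_right pi_bounds.1 ha0)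
    have h := congrArg (fun z => (3141592 / 1000000 : ℝ) * z) ea
    rw [h]
    simp only [un, un₂, pl]
    push_cast
    ring
  rw [pPost, e]
  rcases min_choice (max 1 (3 / 10 * (a - q) + tiltConst (3 / 10)))
      (max (√(π * (1 - a))) (√2 * (1 - q))) with e' | e'
  · rw [e']
    refine (avg_le_of_le ht ht1 (mono (hmin u).2.1) (mono (hmin w).2.1)).trans ?_
    set X := max 1 (3 / 10 * (a - q) + tiltConst (3 / 10))
    have hX : 1 ≤ X := le_max_left _ _
    by_cases hc : dd < tilt q₁ ((u + w) / 2)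
    · simp only [yMid, if_pos hc]
      set M := tilt q₁ ((u + w) / 2)
      have hM' : 0 ≤ un M := by linarith [un_mono hc.le, one.ge]
      have hy : ∀ z, un₂ (2 * M * tilt q₁ z - M * M) = 2 * un M * un (tilt q₁ z) - un M ^ 2 := by
        intro z
        simp only [un, un₂]
        push_cast
        ring
      have hT : (1 - t) * un (tilt q₁ u) + t * un (tilt q₁ w) ≤ X := by
        refine (avg_le_of_le ht ht1 (tilt_le q₁ u) (tilt_le q₁ w)).trans ?_
        refine le_trans ?_ (le_max_right _ _)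
        linarith [wTilt_le, ea.le, ea.ge]
      rw [hy, hy]
      have := mul_le_mul_of_nonneg_left hT hM'
      nlinarith [sq_nonneg (X - un M)]
    · simp only [yMid, if_neg hc]
      have e1 : un₂ (dd * dd) = 1 := by norm_num [un₂, dd]
      rw [e1]
      nlinarith
  · rw [e']
    refine (avg_le_of_le ht ht1 (mono (hmin u).2.2) (mono (hmin w).2.2)).trans ?_
    by_cases hc : 2 * ((dd - q₁) * (dd - q₁)) ≤ pl * (dd - (u + w) / 2)
    · simp only [yBoth, if_pos hc]
      refine le_trans ?_ (pow_le_pow_left₀ (sqrt_nonneg _) (le_max_left _ _) 2)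
      rw [sq_sqrt (mul_nonneg pi_pos.le hA)]
      refine le_trans (le_of_eq ?_) (mul_le_mul_of_nonneg_right pi_bounds.1 hA)
      have h := congrArg (fun z => (3141592 / 1000000 : ℝ) * (1 - z)) ea
      rw [h]
      simp only [un, un₂, pl, dd]
      push_cast
      ring
    · simp only [yBoth, if_neg hc]
      refine le_trans ?_ (pow_le_pow_left₀
        (mul_nonneg (sqrt_nonneg _) (by linarith : 0 ≤ 1 - q)) (le_max_right _ _) 2)
      rw [mul_pow, sq_sqrt (by norm_num : (0 : ℝ) ≤ 2)]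
      have e2 : un₂ (2 * ((dd - q₁) * (dd - q₁))) = 2 * (1 - un q₁) ^ 2 := by
        simp only [un, un₂, dd]
        push_cast
        ring
      rw [e2]
      nlinarith [pow_le_pow_left₀ hq1' (by linarith : 1 - un q₁ ≤ 1 - q) 2]

/-- The second phase between two checked nodes. -/
theorem phase₂ {b : Box} {k : Cal} {u w : ℤ} {q a : ℝ} (hu : 0 ≤ u) (hw : w ≤ dd)
    (hq : q ≤ un b.q₁) (hq1 : b.q₁ ≤ dd) (h : (node₂ b k u w u).2 = true)
    (h' : (node₂ b k u w w).2 = true) (ha : a ∈ Icc (un u) (un w)) :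
    un k.c₂ + un k.l * a ≤ pPost q a ∧
      interp u w (node₂ b k u w u).1 (node₂ b k u w w).1 a ≤ sig (un k.c₂) (un k.l) (pPost q) a :=
  of_nodes h h' ha pPost_nonneg (y₂_le hu hw hq hq1 ha)

end Vale.Agent.P232.CaseB
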