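import Vale.Agent.P232.OneDim.CaseC
import Vale.Agent.P232.OneDim.CaseB.Phase

/-!
# P232: soundness of a leaf of the certificate of case B
-/

open MeasureTheory Set Real

namespace Vale.Agent.P232.CaseB

theorem lt_of_un_lt {m n : ℤ} (h : un m < un n) : m < n := by
  by_contra h'
  exact absurd (un_mono (not_lt.1 h')) (not_le.2 h)

/-- The weight of both phases, extended by zero. -/
noncomputable def wt (k : Cal) (α γ β q a : ℝ) : ℝ :=
  if γ < a then (if a ≤ α then sig (un k.c₁) (un k.l) (pPre q) a else 0)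
  else (if β ≤ a then sig (un k.c₂) (un k.l) (pPost q) a else 0)

theorem measurable_sig_pre (c l q : ℝ) : Measurable (sig c l (pPre q)) := by
  have h : Measurable (pPre q) :=
    Measurable.ite (measurableSet_le measurable_const (by fun_prop)) (by fun_prop) (by fun_prop)
  unfold sig
  fun_prop

theorem measurable_sig_post (c l q : ℝ) : Measurable (sig c l (pPost q)) := by
  unfold sig pPost
  fun_prop

theorem sig_mem (c l : ℝ) (p : ℝ → ℝ) (a : ℝ) : sig c l p a ∈ Icc (0 : ℝ) 1 :=
  ⟨sqrt_nonneg _, sqrt_le_one.2 (by nlinarith [sq_nonneg (max (c + l * a) 0 / p a)])⟩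

theorem integrable_of_mem {f : ℝ → ℝ} (hf : Measurable f) (h : ∀ a, f a ∈ Icc (0 : ℝ) 1)
    (x y : ℝ) : IntervalIntegrable f volume x y := by
  refine (intervalIntegrable_const (c := (1 : ℝ))).mono_fun hf.aestronglyMeasurable
    (Filter.Eventually.of_forall fun a => ?_)
  simp only [norm_one, Real.norm_of_nonneg (h a).1]
  exact (h a).2

theorem wt_mem (k : Cal) (α γ β q a : ℝ) : wt k α γ β q a ∈ Icc (0 : ℝ) 1 := by
  unfold wt
  split_ifs
  all_goals first | exact sig_mem _ _ _ _ | exact ⟨le_rfl, zero_le_one⟩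

theorem measurable_wt (k : Cal) (α γ β q : ℝ) : Measurable (wt k α γ β q) :=
  Measurable.ite measurableSet_Ioi
    (Measurable.ite measurableSet_Iic (measurable_sig_pre _ _ _) measurable_const)
    (Measurable.ite measurableSet_Ici (measurable_sig_post _ _ _) measurable_const)

theorem wt_integrable (k : Cal) (α γ β q x y : ℝ) :
    IntervalIntegrable (wt k α γ β q) volume x y :=
  integrable_of_mem (measurable_wt _ _ _ _ _) (wt_mem _ _ _ _ _) _ _

/-- The two weighted integrals make the integral of the extended weight. -/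
theorem integral_wt_le (k : Cal) {α γ β q x y : ℝ} (h0 : x ≤ β) (h1 : β ≤ γ) (h2 : γ ≤ α)
    (h3 : α ≤ y) :
    ∫ a in x..y, wt k α γ β q a ≤ (∫ a in γ..α, sig (un k.c₁) (un k.l) (pPre q) a) +
      ∫ a in β..γ, sig (un k.c₂) (un k.l) (pPost q) a := by
  have i := wt_integrable k α γ β q
  rw [← intervalIntegral.integral_add_adjacent_intervals (i x β) (i β y),
    ← intervalIntegral.integral_add_adjacent_intervals (i β γ) (i γ y),
    ← intervalIntegral.integral_add_adjacent_intervals (i γ α) (i α y)]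
  have ex : ∫ a in x..β, wt k α γ β q a = 0 := by
    refine intervalIntegral.integral_zero_ae ?_
    filter_upwards [Measure.ae_ne volume β] with a hne ha
    rw [uIoc_of_le h0] at ha
    rw [wt, if_neg (by linarith [ha.2]), if_neg (not_le.2 (lt_of_le_of_ne ha.2 hne))]
  have ey : ∫ a in α..y, wt k α γ β q a = 0 := by
    refine intervalIntegral.integral_zero_ae (Filter.Eventually.of_forall fun a ha => ?_)
    rw [uIoc_of_le h3] at ha
    rw [wt, if_pos (h2.trans_lt ha.1), if_neg (not_le.2 ha.1)]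
  have e1 : ∫ a in γ..α, wt k α γ β q a = ∫ a in γ..α, sig (un k.c₁) (un k.l) (pPre q) a := by
    refine intervalIntegral.integral_congr_ae (Filter.Eventually.of_forall fun a ha => ?_)
    rw [uIoc_of_le h2] at ha
    rw [wt, if_pos ha.1, if_pos ha.2]
  have e2 : ∫ a in β..γ, wt k α γ β q a = ∫ a in β..γ, sig (un k.c₂) (un k.l) (pPost q) a := by
    refine intervalIntegral.integral_congr fun a ha => ?_
    rw [uIcc_of_le h1] at ha
    rw [wt, if_neg (not_lt.2 ha.2), if_pos ha.1]
  linarith

/-- What a checked interval supplies. -/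
def Seg (b : Box) (k : Cal) (α γ β q : ℝ) (u w s : ℤ) : Prop :=
  (s : ℝ) / 2000000000000 ≤ (∫ a in un u..un w, wt k α γ β q a) ∧
    ∀ a ∈ Icc (un u) (un w),
      (un b.g₀ < a → q ≤ a → un k.c₁ + un k.l * a ≤ pPre q a) ∧
      (a < un b.g₁ → un k.c₂ + un k.l * a ≤ pPost q a)

theorem Seg.trans {b : Box} {k : Cal} {α γ β q : ℝ} {u x w s t : ℤ}
    (h : Seg b k α γ β q u x s) (h' : Seg b k α γ β q x w t) :
    Seg b k α γ β q u w (s + t) := by
  refine ⟨?_, fun a ha => ?_⟩
  · rw [← intervalIntegral.integral_add_adjacent_intervals (wt_integrable _ _ _ _ _ _ (un x))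
      (wt_integrable _ _ _ _ _ _ _), Int.cast_add, add_div]
    exact add_le_add h.1 h'.1
  · rcases le_total a (un x) with e | e
    exacts [h.2 a ⟨ha.1, e⟩, h'.2 a ⟨e, ha.2⟩]

theorem interp_le {u w f g f' g' : ℤ} {a : ℝ} (hf : f ≤ f') (hg : g ≤ g')
    (ha : a ∈ Icc (un u) (un w)) : interp u w f g a ≤ interp u w f' g' a := by
  have h0 : 0 ≤ (a - un u) / (un w - un u) :=
    div_nonneg (by linarith [ha.1]) (by linarith [ha.1, ha.2])
  have h1 : (a - un u) / (un w - un u) ≤ 1 :=
    div_le_one_of_le₀ (by linarith [ha.2]) (by linarith [ha.1, ha.2])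
  have := mul_le_mul_of_nonneg_left (un_mono hf) (sub_nonneg.2 h1)
  have := mul_le_mul_of_nonneg_left (un_mono hg) h0
  simp only [interp]
  linarith

theorem integral_interp {u w : ℤ} (f g : ℤ) (h : u < w) :
    ∫ a in un u..un w, interp u w f g a
      = (((w - u) * (f + g) : ℤ) : ℝ) / 2000000000000 := by
  have hne : un w - un u ≠ 0 := by
    have : (u : ℝ) < w := by exact_mod_cast h
    unfold un
    linarith
  calc ∫ a in un u..un w, interp u w f g a
      = ∫ a in un u..un w, (un f - (un g - un f) / (un w - un u) * un u) +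
          (un g - un f) / (un w - un u) * a := by
        refine intervalIntegral.integral_congr fun a _ => ?_
        simp only [interp]
        ring
    _ = (un w - un u) * (un f + un g) / 2 := by
        rw [intervalIntegral.integral_add intervalIntegrable_const
          (Continuous.intervalIntegrable (by fun_prop) _ _),
          intervalIntegral.integral_const, intervalIntegral.integral_const_mul, integral_id]
        simp only [smul_eq_mul]
        field_simp
        ring
    _ = _ := by
        unfold un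
        push_cast
        ring

theorem piece_sound {b : Box} {k : Cal} {α γ β q : ℝ} (hm : Mem b α γ β q) (hq1 : b.q₁ ≤ dd)
    (h3 : q ≤ γ) {u w s : ℤ} (hu : 0 ≤ u) (huw : u ≤ w) (hw : w ≤ dd)
    (h : piece b k u w = some s) : Seg b k α γ β q u w s := by
  obtain ⟨hα, hγ, hβ, hq⟩ := hm
  simp only [piece] at h
  split_ifs at h with hok hin
  · obtain ⟨n1, n2⟩ := hok
    simp only [decide_eq_true_eq, Bool.and_eq_true] at n1 n2
    simp only [Option.some.injEq] at h
    subst h
    refine ⟨?_, fun a ha => ⟨fun hg hqa => ?_, fun hg => ?_⟩⟩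
    · rcases huw.eq_or_lt with rfl | hlt
      · simp
      rw [← integral_interp _ _ hlt]
      refine intervalIntegral.integral_mono_on_of_le_Ioo (un_mono huw)
        (Continuous.intervalIntegrable (by unfold interp; fun_prop) _ _)
        (wt_integrable _ _ _ _ _ _ _) fun a ha => ?_
      have ha' : a ∈ Icc (un u) (un w) := Ioo_subset_Icc_self ha
      have hbu : β ≤ a := hβ.2.trans ((un_mono hin.1).trans ha'.1)
      have haα : a ≤ α := ha'.2.trans ((un_mono hin.2).trans hα.1)
      unfold wt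
      by_cases hc : γ < a
      · have hgw : b.g₀ < w := lt_of_un_lt (by linarith [hγ.1, ha.2])
        obtain ⟨e, e'⟩ := n1 hgw
        rw [if_pos hc, if_pos haα]
        refine le_trans (interp_le ?_ ?_ ha') (phase₁ hw hq.1 (by linarith) e e' ha').2
        all_goals simp [weight, hgw]
      · have hug : u < b.g₁ := lt_of_un_lt (by linarith [hγ.2, ha.1, not_lt.1 hc])
        obtain ⟨e, e'⟩ := n2 hug
        rw [if_neg hc, if_pos hbu]
        refine le_trans (interp_le ?_ ?_ ha') (phase₂ hu hw hq.2 hq1 e e' ha').2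
        all_goals simp [weight, hug]
    · obtain ⟨e, e'⟩ := n1 (lt_of_un_lt (hg.trans_le ha.2))
      exact (phase₁ hw hq.1 hqa e e' ha).1
    · obtain ⟨e, e'⟩ := n2 (lt_of_un_lt (ha.1.trans_lt hg))
      exact (phase₂ hu hw hq.2 hq1 e e' ha).1
  · obtain ⟨n1, n2⟩ := hok
    simp only [decide_eq_true_eq, Bool.and_eq_true] at n1 n2
    simp only [Option.some.injEq] at h
    subst h
    refine ⟨?_, fun a ha => ⟨fun hg hqa => ?_, fun hg => ?_⟩⟩
    · simpa using intervalIntegral.integral_nonneg (un_mono huw)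
        fun a _ => (wt_mem k α γ β q a).1
    · obtain ⟨e, e'⟩ := n1 (lt_of_un_lt (hg.trans_le ha.2))
      exact (phase₁ hw hq.1 hqa e e' ha).1
    · obtain ⟨e, e'⟩ := n2 (lt_of_un_lt (ha.1.trans_lt hg))
      exact (phase₂ hu hw hq.2 hq1 e e' ha).1

theorem sub_sound {b : Box} {k : Cal} {α γ β q : ℝ} (hm : Mem b α γ β q) (hq1 : b.q₁ ≤ dd)
    (h3 : q ≤ γ) : ∀ (n : ℕ) {u w s : ℤ}, 0 ≤ u → u ≤ w → w ≤ dd →
      sub b k w n u = some s → Seg b k α γ β q u w s
  | 0, _, _, _, hu, huw, hw, h => piece_sound hm hq1 h3 hu huw hw h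
  | n + 1, u, w, _, hu, huw, hw, h => by
    simp only [sub] at h
    split at h
    · rename_i s t hs ht
      simp only [Option.some.injEq] at h
      subst h
      have d0 : 0 ≤ (w - u) / ((n : ℤ) + 2) := Int.ediv_nonneg (by omega) (by omega)
      have d1 : (w - u) / ((n : ℤ) + 2) ≤ w - u := Int.ediv_le_self _ (by omega)
      exact (piece_sound hm hq1 h3 hu (by omega) (by omega) hs).trans
        (sub_sound hm hq1 h3 n (by omega) (by omega) hw ht)
    · simp at h

theorem walk_sound {b : Box} {k : Cal} {α γ β q : ℝ} (hm : Mem b α γ β q) (hq1 : b.q₁ ≤ dd)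
    (ha1 : b.a₁ ≤ dd) (h3 : q ≤ γ) : ∀ (l : List ℤ) {u s : ℤ}, 0 ≤ u →
      walk b k u l = some s →
      u ≤ b.a₁ ∧ (u < b.a₁ → Seg b k α γ β q u b.a₁ s) ∧ (u = b.a₁ → s = 0)
  | [], u, _, _, h => by
    simp only [walk] at h
    split_ifs at h with e
    simp only [Option.some.injEq] at h
    exact ⟨e.le, fun hlt => absurd e hlt.ne, fun _ => h.symm⟩
  | x :: r, u, _, hu, h => by
    simp only [walk] at h
    split_ifs at h with e e'
    · exact walk_sound hm hq1 ha1 h3 r hu h
    · split at h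
      · rename_i s t hs ht
        simp only [Option.some.injEq] at h
        subst h
        obtain ⟨hx, hseg, h0⟩ := walk_sound hm hq1 ha1 h3 r (by omega) ht
        refine ⟨by omega, fun _ => ?_, fun hh => absurd hh (by omega)⟩
        have hsub := sub_sound hm hq1 h3 _ hu e'.le (hx.trans ha1) hs
        rcases hx.eq_or_lt with rfl | hlt
        · rwa [h0 rfl, add_zero]
        · exact hsub.trans (hseg hlt)
      · simp at h

/-- The end comparison dominates the candidate at every volume. -/
theorem okEnd_demand {l F : ℤ} (h : okEnd l F = true) {v : ℝ} (h0 : 0 ≤ v) (h1 : v ≤ 1 / 2) :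
    cubeCandidate v ≤ un l * v + (F : ℝ) / 20000000000000 := by
  obtain ⟨c1, c2, -⟩ := CaseC.cube_candidate_le h1
  simp only [okEnd] at h
  by_cases hl : l < 0
  · rw [if_pos hl] at h
    replace h := of_decide_eq_true h
    simp only [dd] at *
    rify at h hl
    refine c1.trans ?_
    simp only [un]
    nlinarith
  rw [if_neg hl] at h
  by_cases hl' : 2 * l ≤ pl
  · rw [if_pos hl'] at h
    replace h := of_decide_eq_true h
    simp only [dd, pl, ph] at *
    rw [not_lt] at hl
    rify at h hl hl'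
    have hr : (1 : ℝ) - un l / (3141593 / 1000000) ≤ (F : ℝ) / 20000000000000 := by
      simp only [un]
      field_simp
      linarith
    have hl0 : 0 ≤ un l := by simp only [un]; positivity
    have hlp : un l ≤ π / 2 := by
      simp only [un]
      linarith [pi_gt_d6]
    rcases le_total 1 (π * v) with hv | hv
    · have : 1 / (3141593 / 1000000 : ℝ) ≤ v := by
        rw [div_le_iff₀ (by norm_num)]
        nlinarith [pi_lt_d6]
      refine c1.trans ?_
      have := mul_le_mul_of_nonneg_left this hl0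
      rw [mul_one_div] at this
      linarith
    · refine c2.trans ?_
      set s := √(π * v) with hs
      have hs2 : s ^ 2 = π * v := sq_sqrt (by positivity)
      have hs1 : s ≤ 1 := sqrt_le_one.2 hv
      have hs0 : 0 ≤ s := sqrt_nonneg _
      have hpi : un l / (3141593 / 1000000) ≤ un l / π :=
        div_le_div_of_nonneg_left hl0 pi_pos (by linarith [pi_lt_d6])
      have hv' : un l * v = un l / π * s ^ 2 := by rw [hs2]; field_simp
      have hh : un l / π ≤ 1 / 2 := by
        rw [div_le_iff₀ pi_pos]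
        linarith
      nlinarith [mul_le_mul_of_nonneg_right hh (by nlinarith : (0 : ℝ) ≤ 1 - s ^ 2)]
  · rw [if_neg hl'] at h
    replace h := of_decide_eq_true h
    simp only [dd, pl, ph] at *
    rw [not_lt] at hl
    rw [not_le] at hl'
    rify at h hl hl'
    have hpos : (0 : ℝ) < un l := by
      simp only [un]
      linarith
    refine c2.trans ((tube_le_line h0 hpos).trans (add_le_add_right ?_ _))
    refine (div_le_div_of_nonneg_right pi_lt_d6.le (by positivity)).trans ?_
    simp only [un] at hpos ⊢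
    rw [div_le_iff₀ (by positivity)]
    linarith

/-- A leaf bounds the volume-free part from below by a number passing the end comparison. -/
theorem okLeaf_bound {b : Box} {k : Cal} (h : okLeaf b k = true) (hb0 : 0 ≤ b.b₀)
    (hbg : b.b₀ ≤ b.g₀) (hga : b.g₁ ≤ b.a₁) (ha1 : b.a₁ ≤ dd) (hq1 : b.q₁ ≤ dd) {α γ β q : ℝ}
    (hm : Mem b α γ β q) (h1 : β ≤ γ) (h2 : γ ≤ α) (h3 : q ≤ γ) :
    (∀ a ∈ Icc γ α, un k.c₁ + un k.l * a ≤ pPre q a) ∧
      (∀ a ∈ Icc β γ, un k.c₂ + un k.l * a ≤ pPost q a) ∧
      ∃ F : ℤ, okEnd k.l F = true ∧ (F : ℝ) / 20000000000000 ≤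
        cut * un k.c₁ + (1 - cut) * un k.c₂ +
          (∫ a in γ..α, sig (un k.c₁) (un k.l) (pPre q) a) +
          ∫ a in β..γ, sig (un k.c₂) (un k.l) (pPost q) a := by
  simp only [okLeaf, Bool.and_eq_true] at h
  obtain ⟨⟨hp, hp'⟩, hw⟩ := h
  split at hw
  case h_2 => simp at hw
  rename_i s hs
  obtain ⟨hba, hseg, hs0⟩ := walk_sound hm hq1 ha1 h3 _ hb0 hs
  obtain ⟨hα, hγ, hβ, hq⟩ := id hm
  have hg0a : b.g₀ ≤ dd := by
    by_contra hc
    have := un_mono hga
    have := un_mono ha1
    have : un dd < un b.g₀ := by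
      simp only [un, dd] at hc ⊢
      rw [not_le] at hc
      rify at hc
      push_cast
      linarith
    linarith [hγ.1, hγ.2]
  refine ⟨fun a ha => ?_, fun a ha => ?_, 2 * dd * (k.c₁ + 9 * k.c₂) + 10 * s, hw, ?_⟩
  · have hqa : q ≤ a := h3.trans ha.1
    rcases (hγ.1.trans ha.1).eq_or_lt with e | e
    · exact (phase₁ hg0a hq.1 hqa hp hp ⟨e.le, e.ge⟩).1
    · have hlt : b.b₀ < b.a₁ :=
        lt_of_un_lt ((un_mono hbg).trans_lt (e.trans_le (ha.2.trans hα.2)))
      exact ((hseg hlt).2 a ⟨(un_mono hbg).trans e.le, ha.2.trans hα.2⟩).1 e hqa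
  · rcases (ha.2.trans hγ.2).eq_or_lt with e | e
    · refine (phase₂ ?_ (hga.trans ha1) hq.2 hq1 hp' hp' ⟨e.ge, e.le⟩).1
      have : un 0 ≤ un b.g₁ := by linarith [un_mono hb0, hβ.1, ha.1]
      by_contra hc
      simp only [un] at this
      rw [not_le] at hc
      rify at hc
      push_cast at this
      linarith
    · have hlt : b.b₀ < b.a₁ :=
        lt_of_un_lt (hβ.1.trans_lt (ha.1.trans_lt (e.trans_le (un_mono hga))))
      exact ((hseg hlt).2 a ⟨hβ.1.trans ha.1, e.le.trans (un_mono hga)⟩).2 e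
  · have hS : (s : ℝ) / 2000000000000 ≤ ∫ a in un b.b₀..un b.a₁, wt k α γ β q a := by
      rcases hba.eq_or_lt with e | e
      · simp [hs0 e, e]
      · exact (hseg e).1
    have hI := hS.trans (integral_wt_le k hβ.1 h1 h2 hα.2)
    have e : ((2 * dd * (k.c₁ + 9 * k.c₂) + 10 * s : ℤ) : ℝ) / 20000000000000
        = cut * un k.c₁ + (1 - cut) * un k.c₂ + (s : ℝ) / 2000000000000 := by
      simp only [un, cut, dd]
      push_cast
      ring
    linarith

/-- Soundness of a leaf. -/
theorem okLeaf_sound {b : Box} {k : Cal} (h : okLeaf b k = true) (hb0 : 0 ≤ b.b₀)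
    (hbg : b.b₀ ≤ b.g₀) (hga : b.g₁ ≤ b.a₁) (ha1 : b.a₁ ≤ dd) (hq1 : b.q₁ ≤ dd) {α γ β q : ℝ}
    (hm : Mem b α γ β q) (h1 : β ≤ γ) (h2 : γ ≤ α) (h3 : q ≤ γ) :
    Goal (un k.c₁) (un k.c₂) (un k.l) α γ β q := by
  obtain ⟨e1, e2, F, hF, hle⟩ := okLeaf_bound h hb0 hbg hga ha1 hq1 hm h1 h2 h3
  refine ⟨e1, e2, fun v hv hv0 => (okEnd_demand hF hv0 hv).trans ?_⟩
  linarith

end Vale.Agent.P232.CaseB
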