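import Vale.Agent.P232.OneDim.CaseB.Select
import Vale.Agent.P232.OneDim.CaseB.Corner
import Vale.Agent.P232.OneDim.CaseB.Cert


/-!
# P232: the two-phase inequality of case B

The certificate tree supplies the calibrations outside the corner at the slab, `cornerCal` inside.
-/

open MeasureTheory Set Real

namespace Vale.Agent.P232.CaseB

theorem cert_cuts_inRange : inRange cert = true := by decide +kernel

/-- The two-phase inequality of case B. -/
theorem stmtCaseB : StmtCaseB := by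
  obtain ⟨ε, hε, h⟩ := check_outcome cornerCal cert root cert_ok cert_cuts_inRange (by decide) (by decide) (by decide)
  have hm := (measurable_select measurable_cornerCal cert).comp
    (show Measurable fun x : ℝ × ℝ × ℝ × ℝ × ℝ => (x.1, x.2.1, x.2.2.1, x.2.2.2.1) by fun_prop)
  refine ⟨_, _, _, hm.fst, hm.snd.fst, hm.snd.snd, fun α γ β q v h0 h1 h2 h3 h4 h5 hv hv1 hv2 => ?_⟩
  have hv0 : 0 ≤ v := by
    simp only [cut] at hv2; linarith
  have hmem : Mem root α γ β q := by
    simp only [cut] at hv2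
    refine ⟨⟨?_, ?_⟩, ⟨?_, ?_⟩, ⟨?_, ?_⟩, ?_, ?_⟩ <;> norm_num [root, un, dd] <;> linarith
  rcases h α γ β q v hmem h1 h2 h5 hv hv1 hv2 with ⟨⟨g1, g2, g3⟩, -⟩ | ⟨ha, hb, he⟩
  · exact ⟨g1, g2, g3 v hv hv0⟩
  · obtain ⟨⟨g1, g2, g3⟩, -⟩ := corner_bound h0 h1 h2 h3 h5 ha hb
    simp only [Function.comp_apply, he, cornerCal]
    exact ⟨g1, g2, g3 v hv hv0⟩

end Vale.Agent.P232.CaseB
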