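import Vale.Agent.P232.OneDim.CaseB.StrictEnd

/-!
# P232: the calibration chosen by a certificate tree, with its slack
-/

open MeasureTheory Set Real

namespace Vale.Agent.P232.CaseB

/-- The cuts of a tree keep the coordinates that the leaf lemmas need in range. -/
def inRange : Tree → Bool
  | .none => true
  | .corner => true
  | .leaf _ _ _ _ => true
  | .sa t x y => decide (t ≤ dd) && inRange x && inRange y
  | .sg _ x y => inRange x && inRange y
  | .sb t x y => decide (0 ≤ t) && inRange x && inRange y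
  | .sq t x y => decide (t ≤ dd) && inRange x && inRange y

/-- The calibration selected by a tree, with `s` used in the corner. -/
noncomputable def select (s : ℝ × ℝ × ℝ × ℝ → ℝ × ℝ × ℝ) : Tree → ℝ × ℝ × ℝ × ℝ → ℝ × ℝ × ℝ
  | .none => fun _ => (0, 0, 0)
  | .corner => s
  | .leaf c₁ c₂ l _ => fun _ => (un c₁, un c₂, un l)
  | .sa t x y => fun p => if p.1 ≤ un t then select s x p else select s y p
  | .sg t x y => fun p => if p.2.1 ≤ un t then select s x p else select s y p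
  | .sb t x y => fun p => if p.2.2.1 ≤ un t then select s x p else select s y p
  | .sq t x y => fun p => if p.2.2.2 ≤ un t then select s x p else select s y p

theorem measurable_select {s : ℝ × ℝ × ℝ × ℝ → ℝ × ℝ × ℝ} (hs : Measurable s) :
    ∀ T, Measurable (select s T)
  | .none => measurable_const
  | .corner => hs
  | .leaf _ _ _ _ => measurable_const
  | .sa _ x y => (measurable_select hs x).ite (measurableSet_le (by fun_prop) measurable_const)
      (measurable_select hs y)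
  | .sg _ x y => (measurable_select hs x).ite (measurableSet_le (by fun_prop) measurable_const)
      (measurable_select hs y)
  | .sb _ x y => (measurable_select hs x).ite (measurableSet_le (by fun_prop) measurable_const)
      (measurable_select hs y)
  | .sq _ x y => (measurable_select hs x).ite (measurableSet_le (by fun_prop) measurable_const)
      (measurable_select hs y)

theorem un_max (m n : ℤ) : un (max m n) = max (un m) (un n) :=
  Monotone.map_max fun _ _ => un_mono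

theorem un_min (m n : ℤ) : un (min m n) = min (un m) (un n) :=
  Monotone.map_min fun _ _ => un_mono

/-- Admissible parameters stay in the clamped box. -/
theorem mem_clamp {b : Box} {α γ β q : ℝ} (hm : Mem b α γ β q) (h1 : β ≤ γ) (h2 : γ ≤ α)
    (h3 : q ≤ γ) : Mem b.clamp α γ β q := by
  obtain ⟨⟨a0, a1⟩, ⟨g0, g1⟩, ⟨b0, b1⟩, q0, q1⟩ := hm
  simp only [Mem, Box.clamp, mem_Icc, un_max, un_min, max_le_iff, le_min_iff]
  refine ⟨⟨⟨a0, g0.trans h2, ?_, ?_⟩, a1⟩, ⟨⟨g0, ?_, ?_⟩, g1, ?_⟩, ⟨b0, b1, ?_, ?_⟩, q0, q1, ?_, ?_⟩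
  all_goals linarith

/-- What a certificate supplies at given parameters: outside the corner a leaf calibration with
slack `ε`, in the corner the calibration `s`. -/
def Outcome (s : ℝ × ℝ × ℝ × ℝ → ℝ × ℝ × ℝ) (ε : ℝ) (k : ℝ × ℝ × ℝ) (α γ β q : ℝ) : Prop :=
  (Goal k.1 k.2.1 k.2.2 α γ β q ∧ ∀ v : ℝ, 0 ≤ v → v ≤ 1 / 2 → v ≤ cut * α + (1 - cut) * γ →
      cubeCandidate v + ε ≤ Rigid.boundB k.1 k.2.1 k.2.2 α γ β q v) ∨
    (999 / 1000 ≤ α ∧ β ≤ 1 / 1000 ∧ k = s (α, γ, β, q))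

theorem Outcome.mono {s : ℝ × ℝ × ℝ × ℝ → ℝ × ℝ × ℝ} {ε ε' : ℝ} {k : ℝ × ℝ × ℝ} {α γ β q : ℝ}
    (h : Outcome s ε k α γ β q) (hε : ε' ≤ ε) : Outcome s ε' k α γ β q :=
  h.imp (fun ⟨hG, hS⟩ => ⟨hG, fun v h0 h1 h2 => by linarith [hS v h0 h1 h2]⟩) id

/-- A checked tree gives a uniform outcome on its box. -/
theorem check_outcome (s : ℝ × ℝ × ℝ × ℝ → ℝ × ℝ × ℝ) : ∀ (T : Tree) (b : Box),
    check T b = true → inRange T = true → 0 ≤ b.b₀ → b.a₁ ≤ dd → b.q₁ ≤ dd →
    ∃ ε > (0 : ℝ), ∀ α γ β q v : ℝ, Mem b α γ β q → β ≤ γ → γ ≤ α → q ≤ γ → v ≤ 1 / 2 →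
      v ≤ cut * α + (1 - cut) * γ → cut * γ + (1 - cut) * β ≤ v →
      Outcome s ε (select s T (α, γ, β, q)) α γ β q
  | .none, b, h, _, _, _, _ => by
    refine ⟨1, one_pos, fun α γ β q v hm h1 h2 h3 hv hv1 hv2 => absurd h ?_⟩
    obtain ⟨⟨a0, a1⟩, ⟨g0, g1⟩, ⟨b0, b1⟩, q0, q1⟩ := mem_clamp hm h1 h2 h3
    simp only [check, isVac, Bool.or_eq_true, decide_eq_true_eq, not_or, not_lt]
    refine ⟨⟨⟨⟨?_, ?_⟩, ?_⟩, ?_⟩, ?_⟩
    all_goals by_contra hc
    all_goals rw [not_le] at hc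
    · rify at hc; simp only [un] at g0 g1; linarith
    · rify at hc; simp only [un] at a0 a1; linarith
    · rify at hc; simp only [un] at b0 b1; linarith
    · rify at hc; simp only [un] at q0 q1; linarith
    · simp only [dd] at hc
      rify at hc
      simp only [un] at g0 b0
      simp only [cut] at hv2
      linarith
  | .corner, b, h, _, _, _, _ => by
    refine ⟨1, one_pos, fun α γ β q v hm h1 h2 h3 _ _ _ => Or.inr ?_⟩
    obtain ⟨⟨a0, -⟩, -, ⟨-, b1⟩, -⟩ := mem_clamp hm h1 h2 h3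
    simp only [check] at h
    obtain ⟨e1, e2⟩ := of_decide_eq_true h
    simp only [dd] at e1
    rify at e1 e2
    simp only [un] at a0 b1
    exact ⟨by linarith, by linarith, rfl⟩
  | .leaf c₁ c₂ l n, b, h, _, hb0, ha1, hq1 => by
    simp only [check] at h
    have hb0' : 0 ≤ b.clamp.b₀ := by simpa [Box.clamp] using hb0
    have ha1' : b.clamp.a₁ ≤ dd := by simpa [Box.clamp] using ha1
    have hq1' : b.clamp.q₁ ≤ dd := by
      simp only [Box.clamp]
      exact (min_le_left _ _).trans hq1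
    obtain ⟨ε, hε, hs⟩ := okLeaf_slack h hb0' ha1' hq1'
    refine ⟨ε, hε, fun α γ β q v hm h1 h2 h3 _ _ _ => Or.inl ⟨?_, fun w h0 h5 _ => ?_⟩⟩
    · refine okLeaf_sound h hb0' ?_ ?_ ha1' hq1' (mem_clamp hm h1 h2 h3) h1 h2 h3
      · simp only [Box.clamp]
        exact le_trans (le_max_left _ _) (le_max_right _ _)
      · simp only [Box.clamp]
        exact min_le_right _ _
    · exact hs α γ β q w (mem_clamp hm h1 h2 h3) h1 h2 h3 h0 h5
  | .sa t x y, b, h, hr, hb0, ha1, hq1 => by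
    simp only [check, inRange, Bool.and_eq_true, decide_eq_true_eq] at h hr
    obtain ⟨e, he, hx⟩ := check_outcome s x _ h.1 hr.1.2 hb0 hr.1.1 hq1
    obtain ⟨e', he', hy⟩ := check_outcome s y _ h.2 hr.2 hb0 ha1 hq1
    refine ⟨min e e', lt_min he he', fun α γ β q v hm h1 h2 h3 hv hv1 hv2 => ?_⟩
    simp only [select]
    split_ifs with hc
    · exact (hx α γ β q v ⟨⟨hm.1.1, hc⟩, hm.2⟩ h1 h2 h3 hv hv1 hv2).mono (min_le_left _ _)
    · exact (hy α γ β q v ⟨⟨(not_le.1 hc).le, hm.1.2⟩, hm.2⟩ h1 h2 h3 hv hv1 hv2).mono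
        (min_le_right _ _)
  | .sg t x y, b, h, hr, hb0, ha1, hq1 => by
    simp only [check, inRange, Bool.and_eq_true] at h hr
    obtain ⟨e, he, hx⟩ := check_outcome s x _ h.1 hr.1 hb0 ha1 hq1
    obtain ⟨e', he', hy⟩ := check_outcome s y _ h.2 hr.2 hb0 ha1 hq1
    refine ⟨min e e', lt_min he he', fun α γ β q v hm h1 h2 h3 hv hv1 hv2 => ?_⟩
    simp only [select]
    split_ifs with hc
    · exact (hx α γ β q v ⟨hm.1, ⟨hm.2.1.1, hc⟩, hm.2.2⟩ h1 h2 h3 hv hv1 hv2).mono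
        (min_le_left _ _)
    · exact (hy α γ β q v ⟨hm.1, ⟨(not_le.1 hc).le, hm.2.1.2⟩, hm.2.2⟩ h1 h2 h3 hv hv1 hv2).mono
        (min_le_right _ _)
  | .sb t x y, b, h, hr, hb0, ha1, hq1 => by
    simp only [check, inRange, Bool.and_eq_true, decide_eq_true_eq] at h hr
    obtain ⟨e, he, hx⟩ := check_outcome s x _ h.1 hr.1.2 hb0 ha1 hq1
    obtain ⟨e', he', hy⟩ := check_outcome s y _ h.2 hr.2 hr.1.1 ha1 hq1
    refine ⟨min e e', lt_min he he', fun α γ β q v hm h1 h2 h3 hv hv1 hv2 => ?_⟩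
    simp only [select]
    split_ifs with hc
    · exact (hx α γ β q v ⟨hm.1, hm.2.1, ⟨hm.2.2.1.1, hc⟩, hm.2.2.2⟩ h1 h2 h3 hv hv1 hv2).mono
        (min_le_left _ _)
    · exact (hy α γ β q v ⟨hm.1, hm.2.1, ⟨(not_le.1 hc).le, hm.2.2.1.2⟩, hm.2.2.2⟩
        h1 h2 h3 hv hv1 hv2).mono (min_le_right _ _)
  | .sq t x y, b, h, hr, hb0, ha1, hq1 => by
    simp only [check, inRange, Bool.and_eq_true, decide_eq_true_eq] at h hr
    obtain ⟨e, he, hx⟩ := check_outcome s x _ h.1 hr.1.2 hb0 ha1 hr.1.1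
    obtain ⟨e', he', hy⟩ := check_outcome s y _ h.2 hr.2 hb0 ha1 hq1
    refine ⟨min e e', lt_min he he', fun α γ β q v hm h1 h2 h3 hv hv1 hv2 => ?_⟩
    simp only [select]
    split_ifs with hc
    · exact (hx α γ β q v ⟨hm.1, hm.2.1, hm.2.2.1, hm.2.2.2.1, hc⟩ h1 h2 h3 hv hv1 hv2).mono
        (min_le_left _ _)
    · exact (hy α γ β q v ⟨hm.1, hm.2.1, hm.2.2.1, (not_le.1 hc).le, hm.2.2.2.2⟩
        h1 h2 h3 hv hv1 hv2).mono (min_le_right _ _)

end Vale.Agent.P232.CaseB
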