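import Vale.Agent.P232.Slice.Defs
import Vale.Agent.P232.OneDim.CaseB.Check

/-!
# P232: the meaning of the checker of case B
-/

open MeasureTheory Set Real

namespace Vale.Agent.P232.CaseB

/-- Conversion from units. -/
noncomputable def un (n : ℤ) : ℝ := (n : ℝ) / 1000000

/-- The affine interpolation of the values `f, g` at the ends of `[u, w]`. -/
noncomputable def interp (u w f g : ℤ) (a : ℝ) : ℝ :=
  un f + (un g - un f) * ((a - un u) / (un w - un u))

/-- The parameters lie in the box. -/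
def Mem (b : Box) (α γ β q : ℝ) : Prop :=
  α ∈ Icc (un b.a₀) (un b.a₁) ∧ γ ∈ Icc (un b.g₀) (un b.g₁) ∧ β ∈ Icc (un b.b₀) (un b.b₁) ∧
    q ∈ Icc (un b.q₀) (un b.q₁)

/-- The inequality of case B at given parameters, for given calibrations and every volume. -/
def Goal (c₁ c₂ l α γ β q : ℝ) : Prop :=
  (∀ a ∈ Icc γ α, c₁ + l * a ≤ pPre q a) ∧ (∀ a ∈ Icc β γ, c₂ + l * a ≤ pPost q a) ∧
    ∀ v ≤ (1 / 2 : ℝ), 0 ≤ v →
      cubeCandidate v ≤ cut * c₁ + (1 - cut) * c₂ + l * v +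
        (∫ a in γ..α, sig c₁ l (pPre q) a) + ∫ a in β..γ, sig c₂ l (pPost q) a

end Vale.Agent.P232.CaseB
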