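import Vale.Agent.P232.OneDim.CaseB.Main

/-!
# P232: the two-phase inequality of case B with strictness

Away from the corner at the slab every leaf has a positive slack; in the corner the gain is
proportional to `β + (1 - α)`.
-/

open MeasureTheory Set Real

namespace Vale.Agent.P232.CaseB

/-- Case B with strictness. -/
theorem caseB_strict : Rigid.StmtStrictB := by
  obtain ⟨ε, hε, h⟩ := check_outcome cornerCal cert root cert_ok cert_cuts_inRange (by decide)
    (by decide) (by decide)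
  have hm := (measurable_select measurable_cornerCal cert).comp
    (show Measurable fun x : ℝ × ℝ × ℝ × ℝ × ℝ => (x.1, x.2.1, x.2.2.1, x.2.2.2.1) by fun_prop)
  have hmem : ∀ α γ β q v : ℝ, 0 ≤ β → β ≤ γ → γ ≤ α → α ≤ 1 → 0 ≤ q → q ≤ γ → v ≤ 1 / 2 →
      cut * γ + (1 - cut) * β ≤ v → Mem root α γ β q := by
    intro α γ β q v h0 h1 h2 h3 h4 h5 hv hv2
    simp only [cut] at hv2
    refine ⟨⟨?_, ?_⟩, ⟨?_, ?_⟩, ⟨?_, ?_⟩, ?_, ?_⟩ <;> norm_num [root, un, dd] <;> linarith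
  refine ⟨_, _, _, hm.fst, hm.snd.fst, hm.snd.snd, ?_, fun δ hδ => ⟨min ε (δ / 5),
    lt_min hε (by linarith), ?_⟩⟩
  · intro α γ β q v h0 h1 h2 h3 h4 h5 hv hv1 hv2
    rcases h α γ β q v (hmem α γ β q v h0 h1 h2 h3 h4 h5 hv hv2) h1 h2 h5 hv hv1 hv2 with
      ⟨⟨g1, g2, -⟩, -⟩ | ⟨ha, hb, he⟩
    · exact ⟨g1, g2⟩
    · obtain ⟨⟨g1, g2, -⟩, -⟩ := corner_bound h0 h1 h2 h3 h5 ha hb
      simp only [Function.comp_apply, he, cornerCal]
      exact ⟨g1, g2⟩
  · intro α γ β q v h0 h1 h2 h3 h4 h5 hdv hv hv1 hv2 hlt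
    simp only [Function.comp_apply] at hlt
    have e1 := min_le_left ε (δ / 5)
    have e2 := min_le_right ε (δ / 5)
    rcases h α γ β q v (hmem α γ β q v h0 h1 h2 h3 h4 h5 hv hv2) h1 h2 h5 hv hv1 hv2 with
      ⟨-, hs⟩ | ⟨ha, hb, he⟩
    · linarith [hs v (by linarith) hv hv1]
    · have hg := (corner_bound h0 h1 h2 h3 h5 ha hb).2 v hv
      simp only [he, cornerCal] at hlt
      constructor <;> linarith

end Vale.Agent.P232.CaseB
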