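import Vale.Agent.P232.OneDim.CaseB.Leaf
import Vale.Agent.P232.Rigid.Core.Specs

/-!
# P232: a leaf of the certificate of case B beats the candidate by a positive amount
-/

open MeasureTheory Set Real

namespace Vale.Agent.P232.CaseB

/-- The comparison with `<` leaves a positive slack, uniform in the volume. -/
theorem okEnd_slack {l F : ℤ} (h : okEnd l F = true) :
    ∃ ε > (0 : ℝ), ∀ v : ℝ, 0 ≤ v → v ≤ 1 / 2 →
      cubeCandidate v + ε ≤ (F : ℝ) / 20000000000000 + un l * v := by
  unfold okEnd at h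
  split_ifs at h with h1 h2
  · have h' := of_decide_eq_true h
    simp only [dd] at h'
    rify at h' h1
    refine ⟨((F : ℝ) - (20000000000000 - 10000000 * l)) / 20000000000000,
      div_pos (by linarith) (by norm_num), fun v hv0 hv => ?_⟩
    obtain ⟨c1, -, -⟩ := CaseC.cube_candidate_le hv
    unfold un
    nlinarith [mul_nonneg (neg_nonneg.2 h1.le) (sub_nonneg.2 hv), c1]
  · have h' := of_decide_eq_true h
    simp only [dd, ph, pl] at h' h2
    push Not at h1
    rify at h' h1 h2
    refine ⟨((F : ℝ) * 3141593 - 20000000000000 * (3141593 - l)) / (20000000000000 * 3141593),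
      div_pos (by linarith) (by norm_num), fun v hv0 hv => ?_⟩
    obtain ⟨c1, c2, -⟩ := CaseC.cube_candidate_le hv
    have hμ0 : 0 ≤ 2 * (l : ℝ) / 3141593 := by positivity
    have hμ1 : 2 * (l : ℝ) / 3141593 ≤ 1 := by
      rw [div_le_one (by norm_num)]
      linarith
    have hs : √(π * v) ≤ (1 + 3141593 / 1000000 * v) / 2 := by
      have := two_mul_le_add_sq (√(π * v)) 1
      rw [sq_sqrt (by positivity)] at this
      nlinarith [mul_le_mul_of_nonneg_right pi_lt_d6.le hv0]
    have := add_le_add (mul_le_mul_of_nonneg_left c1 (sub_nonneg.2 hμ1))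
      (mul_le_mul_of_nonneg_left (c2.trans hs) hμ0)
    unfold un
    ring_nf at this ⊢
    linarith
  · have h' := of_decide_eq_true h
    simp only [dd, ph, pl] at h' h2
    push Not at h2
    rify at h' h2
    have hl' : (0 : ℝ) < l := by linarith
    have e : 3141593 / 1000000 / (4 * ((l : ℝ) / 1000000)) < (F : ℝ) / 20000000000000 := by
      rw [div_lt_div_iff₀ (by positivity) (by norm_num)]
      linarith
    refine ⟨(F : ℝ) / 20000000000000 - 3141593 / 1000000 / (4 * ((l : ℝ) / 1000000)),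
      sub_pos.2 e, fun v hv0 hv => ?_⟩
    obtain ⟨-, c2, -⟩ := CaseC.cube_candidate_le hv
    have hl : (0 : ℝ) < (l : ℝ) / 1000000 := div_pos hl' (by norm_num)
    have hs : √(π * v) ≤ (l : ℝ) / 1000000 * v + 3141593 / 1000000 / (4 * ((l : ℝ) / 1000000)) := by
      rw [sqrt_le_left (by positivity)]
      refine le_trans ?_ (four_mul_le_sq_add _ _)
      refine le_trans (mul_le_mul_of_nonneg_right pi_lt_d6.le hv0) (le_of_eq ?_)
      generalize (l : ℝ) / 1000000 = m at hl
      field_simp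
      ring
    unfold un
    linarith [c2.trans hs]

/-- A leaf beats the candidate by a positive amount, uniformly on its box and in the volume. -/
theorem okLeaf_slack {b : Box} {k : Cal} (h : okLeaf b k = true) (hb0 : 0 ≤ b.b₀)
    (ha1 : b.a₁ ≤ dd) (hq1 : b.q₁ ≤ dd) :
    ∃ ε > (0 : ℝ), ∀ α γ β q v : ℝ, Mem b α γ β q → β ≤ γ → γ ≤ α → q ≤ γ → 0 ≤ v → v ≤ 1 / 2 →
      cubeCandidate v + ε ≤ Rigid.boundB (un k.c₁) (un k.c₂) (un k.l) α γ β q v := by
  simp only [okLeaf, Bool.and_eq_true] at h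
  obtain ⟨-, hw⟩ := h
  split at hw
  case h_2 => simp at hw
  rename_i s hs
  obtain ⟨ε, hε, hend⟩ := okEnd_slack hw
  refine ⟨ε, hε, fun α γ β q v hm h1 h2 h3 hv0 hv => (hend v hv0 hv).trans ?_⟩
  obtain ⟨hba, hseg, hs0⟩ := walk_sound hm hq1 ha1 h3 _ hb0 hs
  obtain ⟨hα, -, hβ, -⟩ := id hm
  have hS : (s : ℝ) / 2000000000000 ≤ ∫ a in un b.b₀..un b.a₁, wt k α γ β q a := by
    rcases hba.eq_or_lt with e | e
    · simp [hs0 e, e]
    · exact (hseg e).1
  have hI := hS.trans (integral_wt_le k hβ.1 h1 h2 hα.2)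
  have e : ((2 * dd * (k.c₁ + 9 * k.c₂) + 10 * s : ℤ) : ℝ) / 20000000000000
      = cut * un k.c₁ + (1 - cut) * un k.c₂ + (s : ℝ) / 2000000000000 := by
    simp only [un, cut, dd]
    push_cast
    ring
  simp only [Rigid.boundB]
  linarith

end Vale.Agent.P232.CaseB
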